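import Crest.Agent.X212.Win22.Cl

/-!
From honest graded `F₂[U]`-modules to `Bor5.Ob`; complexes given by generators.
-/

set_option autoImplicit false
set_option linter.unusedSectionVars false

open Module Function Filter

noncomputable section

namespace Crest.Agent.X212.Win22

open Bor5

/-- A graded module that is a single tower in each class in high degrees. -/
structure Hf (L : Type) : Type 1 where
  H : Type
  [acg : AddCommGroup H]
  [mdl : Module K H]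
  gr : L → ℚ → Submodule K H
  ind : iSupIndep fun i : L × ℚ => gr i.1 i.2
  top : ⨆ i : L × ℚ, gr i.1 i.2 = ⊤
  fd : ∀ s x, FiniteDimensional K (gr s x)
  U : H →ₗ[K] H
  U_mem : ∀ s x y, y ∈ gr s x → U y ∈ gr s (x - 2)
  w : L → ℚ
  lat : ∀ s x, gr s x ≠ ⊥ → ∃ k : ℕ, x = w s + k
  N : ℕ
  ev : ∀ s (k : ℕ), N ≤ k → Even k → finrank K (gr s (w s + k)) = 1 ∧
    ∀ y ∈ gr s (w s + k + 2), U y = 0 → y = 0
  od : ∀ s (k : ℕ), N ≤ k → Odd k → gr s (w s + k) = ⊥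

attribute [instance] Hf.acg Hf.mdl

namespace Hf

variable {L : Type} (X : Hf L)

theorem gr_lat {s : L} {x : ℚ} (h : ¬∃ k : ℕ, x = X.w s + k) : X.gr s x = ⊥ :=
  by_contra fun e => h (X.lat s x e)

theorem tower (s : L) : ∃ (E : ℤ → X.H) (j0 : ℤ),
    (∀ j : ℤ, E j ∈ X.gr s (X.w s + 2 * j)) ∧ (∀ j, X.U (E (j + 1)) = E j) ∧
      (∀ j, E j ≠ 0 ↔ j0 ≤ j) ∧ j0 ≤ X.N := by
  have key : ∀ j : ℤ, (X.N : ℤ) ≤ j → ∃ k : ℕ, X.N ≤ k ∧ Even k ∧ (2 * j : ℚ) = k := fun j hj => by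
    obtain ⟨r, rfl⟩ := Int.eq_ofNat_of_zero_le (le_trans (Int.natCast_nonneg _) hj)
    exact ⟨2 * r, by omega, even_two_mul r, by push_cast; rfl⟩
  refine exists_tower X.U (fun j => X.gr s (X.w s + 2 * j)) X.N (fun j y hy => ?_)
    (fun j hj => ?_) (fun j hj => ?_) fun j hj => X.gr_lat ?_
  · have := X.U_mem s _ y hy
    rwa [show X.w s + 2 * ((j + 1 : ℤ) : ℚ) - 2 = X.w s + 2 * j by push_cast; ring] at this
  · obtain ⟨k, h1, h2, e⟩ := key j hj
    rw [e]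
    exact (X.ev s k h1 h2).1
  · obtain ⟨k, h1, h2, e⟩ := key j hj
    rw [show X.w s + 2 * ((j + 1 : ℤ) : ℚ) = X.w s + k + 2 by rw [← e]; push_cast; ring]
    exact (X.ev s k h1 h2).2
  · rintro ⟨k, hk⟩
    have h1 : (j : ℚ) < 0 := by exact_mod_cast hj
    have h2 : (0 : ℚ) ≤ k := Nat.cast_nonneg k
    linarith

/-- tower elements by index -/
def E (s : L) : ℤ → X.H := (X.tower s).choose

/-- index of the bottom -/
def j0 (s : L) : ℤ := (X.tower s).choose_spec.choose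

theorem E_spec (s : L) :
    (∀ j : ℤ, X.E s j ∈ X.gr s (X.w s + 2 * j)) ∧ (∀ j, X.U (X.E s (j + 1)) = X.E s j) ∧
      (∀ j, X.E s j ≠ 0 ↔ X.j0 s ≤ j) ∧ X.j0 s ≤ X.N := (X.tower s).choose_spec.choose_spec

open Classical in
/-- tower elements by degree -/
def e (s : L) (x : ℚ) : X.H :=
  if h : ∃ j : ℤ, x = X.w s + 2 * j then X.E s h.choose else 0

theorem e_eq (s : L) (j : ℤ) : X.e s (X.w s + 2 * j) = X.E s j := by
  have h : ∃ i : ℤ, X.w s + 2 * j = X.w s + 2 * i := ⟨j, rfl⟩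
  have e : (j : ℚ) = h.choose := by linarith [h.choose_spec]
  rw [Hf.e, dif_pos h, ← Int.cast_injective e]

theorem e_not {s : L} {x : ℚ} (h : ¬∃ j : ℤ, x = X.w s + 2 * j) : X.e s x = 0 := dif_neg h

/-- the bottoms -/
def d (s : L) : ℚ := X.w s + 2 * X.j0 s

theorem e_mem (s : L) (x : ℚ) : X.e s x ∈ X.gr s x := by
  by_cases h : ∃ j : ℤ, x = X.w s + 2 * j
  · obtain ⟨j, rfl⟩ := h
    rw [e_eq]
    exact (X.E_spec s).1 j
  · rw [X.e_not h]
    exact zero_mem _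

theorem e_ne (s : L) (x : ℚ) : X.e s x ≠ 0 ↔ ∃ k : ℕ, x = X.d s + 2 * k := by
  constructor
  · intro h0
    obtain ⟨j, rfl⟩ : ∃ j : ℤ, x = X.w s + 2 * j := by_contra fun h => h0 (X.e_not h)
    rw [e_eq, (X.E_spec s).2.2.1] at h0
    obtain ⟨k, rfl⟩ := Int.le.dest h0
    exact ⟨k, by rw [d]; push_cast; ring⟩
  · rintro ⟨k, rfl⟩
    rw [show X.d s + 2 * k = X.w s + 2 * ((X.j0 s + k : ℤ) : ℚ) by rw [d]; push_cast; ring,
      e_eq, (X.E_spec s).2.2.1]
    omega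

theorem U_e (s : L) (x : ℚ) : X.U (X.e s x) = X.e s (x - 2) := by
  by_cases h : ∃ j : ℤ, x = X.w s + 2 * j
  · obtain ⟨j, rfl⟩ := h
    rw [show X.w s + 2 * (j : ℚ) - 2 = X.w s + 2 * ((j - 1 : ℤ) : ℚ) by push_cast; ring,
      e_eq, e_eq, ← (X.E_spec s).2.1 (j - 1), sub_add_cancel]
  · rw [X.e_not h, map_zero, e_not]
    rintro ⟨j, hj⟩
    exact h ⟨j + 1, by push_cast; linarith⟩

theorem fin [Finite L] : {i : L × ℚ | ¬X.gr i.1 i.2 ≤ K ∙ X.e i.1 i.2}.Finite := by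
  refine (Set.finite_iUnion fun s : L =>
    (Set.finite_lt_nat (2 * X.N)).image fun k : ℕ => (s, X.w s + k)).subset ?_
  rintro ⟨s, x⟩ h
  obtain ⟨k, rfl⟩ : ∃ k : ℕ, x = X.w s + k := by_contra fun e => h (by
    rw [X.gr_lat e]; exact bot_le)
  refine Set.mem_iUnion.2 ⟨s, k, by_contra fun hk => h ?_, rfl⟩
  have hk' : 2 * X.N ≤ k := not_lt.1 hk
  rcases Nat.even_or_odd k with he | ho
  · have h1 := (X.ev s k (by omega) he).1
    obtain ⟨r, rfl⟩ := he
    have e : X.w s + ((r + r : ℕ) : ℚ) = X.w s + 2 * ((r : ℤ) : ℚ) := by push_cast; ring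
    rw [e] at h1
    show X.gr s (X.w s + ((r + r : ℕ) : ℚ)) ≤ K ∙ X.e s (X.w s + ((r + r : ℕ) : ℚ))
    rw [e, e_eq]
    exact le_span_of_finrank h1 ((X.E_spec s).1 r)
      (((X.E_spec s).2.2.1 r).2 ((X.E_spec s).2.2.2.trans (by omega)))
  · rw [X.od s k (by omega) ho]
    exact bot_le

/-- The object of `Bor5` with the same module; the classes are labelled by `φ`. -/
@[reducible] def ob {P : ℕ} (hP : 0 < P) (φ : ZMod P ≃ L) : Ob where
  H := X.H
  P := P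
  pos := hP
  gr s := X.gr (φ s)
  ind := X.ind.comp (f := fun i : ZMod P × ℚ => (φ i.1, i.2)) fun _ _ h =>
    Prod.ext (φ.injective (congrArg Prod.fst h)) (congrArg (fun p => p.2) h)
  top := by
    rw [← X.top]
    exact (φ.prodCongr (Equiv.refl ℚ)).iSup_comp (g := fun i : L × ℚ => X.gr i.1 i.2)
  fd s := X.fd (φ s)
  U := X.U
  U_mem s := X.U_mem (φ s)
  d s := X.d (φ s)
  e s := X.e (φ s)
  e_mem s := X.e_mem (φ s)
  e_ne s := X.e_ne (φ s)
  U_e s := X.U_e (φ s)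
  fin := by
    have : NeZero P := ⟨hP.ne'⟩
    have : Finite L := Finite.of_equiv _ φ
    exact X.fin.preimage (f := fun i : ZMod P × ℚ => (φ i.1, i.2)) fun _ _ _ _ h =>
      Prod.ext (φ.injective (congrArg Prod.fst h)) (congrArg (fun p => p.2) h)

variable {L' : Type} {Y : Hf L'} {P P' : ℕ} (hP : 0 < P) (φ : ZMod P ≃ L) (hP' : 0 < P')
  (φ' : ZMod P' ≃ L')

theorem ob_cg (s : ZMod P) : ∃ k : ℤ, (X.ob hP φ).d s = X.w (φ s) + 2 * k := ⟨_, rfl⟩

/-- (T): a homogeneous map that is injective in high degrees matches the towers -/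
theorem ob_tow (f : X.H →ₗ[K] Y.H) (s : ZMod P) (t : ZMod P') (δ : ℚ)
    (hm : ∀ x, ∀ y ∈ X.gr (φ s) x, f y ∈ Y.gr (φ' t) (x + δ))
    (hk : ∃ k : ℤ, Y.w (φ' t) = X.w (φ s) + δ + 2 * k)
    (hi : ∃ N, ∀ x, N ≤ x → ∀ y ∈ X.gr (φ s) x, f y = 0 → y = 0) :
    ∃ N, ∀ x, N ≤ x → f ((X.ob hP φ).e s x) = (Y.ob hP' φ').e t (x + δ) := by
  obtain ⟨k, hk⟩ := hk
  obtain ⟨N, hN⟩ := hi
  refine tow_of (X.ob hP φ) (Y.ob hP' φ') f s t δ hm (k := k + Y.j0 (φ' t) - X.j0 (φ s)) ?_ hN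
  show Y.w _ + 2 * (Y.j0 _ : ℚ) = X.w _ + 2 * (X.j0 _ : ℚ) + _ + _
  rw [hk]
  push_cast
  ring

/-- the parity hypothesis of `ob_tow` follows from injectivity -/
theorem par_of_inj (f : X.H →ₗ[K] Y.H) (s : L) (t : L') (δ : ℚ)
    (hm : ∀ x, ∀ y ∈ X.gr s x, f y ∈ Y.gr t (x + δ))
    (hi : ∃ N, ∀ x, N ≤ x → ∀ y ∈ X.gr s x, f y = 0 → y = 0) :
    ∃ k : ℤ, Y.w t = X.w s + δ + 2 * k := by
  obtain ⟨N, hN⟩ := hi
  obtain ⟨n, hn⟩ := exists_nat_ge (max (N - X.d s) (Y.w t + Y.N - δ - X.d s))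
  rw [max_le_iff] at hn
  have h0 : (0 : ℚ) ≤ n := Nat.cast_nonneg n
  have h1 : f (X.e s (X.d s + 2 * n)) ≠ 0 := fun e =>
    (X.e_ne s _).2 ⟨n, rfl⟩ (hN _ (by linarith [hn.1]) _ (X.e_mem s _) e)
  have h2 : Y.gr t (X.d s + 2 * n + δ) ≠ ⊥ :=
    (Submodule.ne_bot_iff _).2 ⟨_, hm _ _ (X.e_mem s _), h1⟩
  obtain ⟨k, hk⟩ := Y.lat t _ h2
  have hk' : Y.N ≤ k := by
    have : (Y.N : ℚ) ≤ k := by linarith [hn.2]
    exact_mod_cast this
  rcases Nat.even_or_odd k with ⟨r, rfl⟩ | ho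
  · refine ⟨X.j0 s + n - r, ?_⟩
    rw [d] at hk
    push_cast at hk ⊢
    linarith
  · exact (h2 (hk ▸ Y.od t k hk' ho)).elim

/-- a graded isomorphism -/
def obIso (g : X.H ≃ₗ[K] Y.H) (τ : L ≃ L') (hm : ∀ s x, ∀ y ∈ X.gr s x, g y ∈ Y.gr (τ s) x)
    (hU : ∀ y, g (X.U y) = Y.U (g y)) : Iso (X.ob hP φ) (Y.ob hP' φ') where
  φ := φ.trans (τ.trans φ'.symm)
  g := g
  map s x := by
    show (X.gr (φ s) x).map (g : X.H →ₗ[K] Y.H) = Y.gr (φ' (φ'.symm (τ (φ s)))) x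
    rw [φ'.apply_symm_apply]
    refine le_antisymm ?_ fun z hz => ?_
    · rintro _ ⟨y, hy, rfl⟩
      exact hm _ _ y hy
    · exact map_piece (W := fun j : L × ℚ => X.gr j.1 j.2) (W' := fun j : L' × ℚ => Y.gr j.1 j.2)
        X.top Y.ind (τ := fun j => (τ j.1, j.2))
        (fun a b h => Prod.ext (τ.injective (congrArg Prod.fst h)) (congrArg (fun p => p.2) h))
        (g := (g : X.H →ₗ[K] Y.H)) g.surjective (fun j y hy => hm j.1 j.2 y hy) (φ s, x) hz
  U := hU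

end Hf

/-- The module of a complex with a `U`-map that has only tower generators in high degrees. -/
def WC.hf {L : Type} (X : WC L) (U : WCh X X)
    (hU : ∀ s x, ∀ᶠ m in atTop, ∀ y ∈ (X.g m).W (s, x), U.φ m y ∈ (X.g m).W (s, x - 2)) (N : ℕ)
    (ev : ∀ s (k : ℕ), N ≤ k → Even k → ∀ᶠ m in atTop,
      finrank K ((X.g m).W (s, X.w s + k)) = 1 ∧
        ∀ y ∈ (X.g m).W (s, X.w s + k + 2), U.φ m y = 0 → y = 0)
    (od : ∀ s (k : ℕ), N ≤ k → Odd k → ∀ᶠ m in atTop, (X.g m).W (s, X.w s + k) = ⊥) : Hf L where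
  H := X.Hm
  gr := X.gr
  ind := X.gr_ind
  top := X.gr_top
  fd := X.gr_fd
  U := U.hm
  U_mem s x := U.hm_mem (hU s x)
  w := X.w
  lat := X.gr_lat
  N := N + 1
  ev s k hk he := by
    have h1 : ∀ᶠ m in atTop, (X.g m).W (s, X.w s + k + 1) = ⊥ := by
      have := od s (k + 1) (by omega) he.add_one
      rwa [Nat.cast_add_one, ← add_assoc] at this
    refine ⟨X.gr_one ((ev s k (by omega) he).mono fun _ h => h.1) h1 ?_,
      U.hm_inj (hU s _) ((ev s k (by omega) he).mono fun _ h => h.2) ?_⟩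
    · obtain ⟨j, rfl⟩ : ∃ j, k = j + 1 := ⟨k - 1, by omega⟩
      have := od s j (by omega) (Nat.not_even_iff_odd.1 (Nat.even_add_one.1 he))
      rwa [Nat.cast_add_one, ← add_assoc, add_sub_cancel_right]
    · rwa [show X.w s + k + 2 - 2 + 1 = X.w s + k + 1 by ring]
  od s k hk ho := X.gr_bot (od s k (by omega) ho)

section Gen

variable {ι κ Λ Λ' : Type} [Fintype ι] [DecidableEq ι]

theorem pc_le_iSup (lab : ι → Λ) (S : Set Λ) :
    pc K (lab ⁻¹' S) ≤ ⨆ l ∈ S, pc K (lab ⁻¹' {l}) := fun x hx => by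
  rw [pi_eq_sum_univ' x]
  refine sum_mem fun i _ => ?_
  by_cases hi : lab i ∈ S
  · refine Submodule.smul_mem _ _ (le_iSup₂_of_le (f := fun l (_ : l ∈ S) => pc K (lab ⁻¹' {l}))
      (lab i) hi le_rfl fun j hj => Pi.single_eq_of_ne (fun e => hj ?_) _)
    rw [e]
    rfl
  · rw [hx i hi, zero_smul]
    exact zero_mem _

/-- The grading of the space with basis `ι` by labels of the generators. -/
def gdOf (lab : ι → Λ) : Gd K (ι → K) Λ where
  W l := pc K (lab ⁻¹' {l})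
  ind l := by
    refine Disjoint.mono_right (c := pc K (lab ⁻¹' {l})ᶜ)
      (iSup₂_le fun j hj => pc_mono fun i (h : lab i = j) (h' : lab i = l) => hj (h ▸ h')) ?_
    rw [Submodule.disjoint_def]
    intro x h1 h2
    rw [← pr_eq_self h1]
    exact pr_eq_zero disjoint_compl_right h2
  top := by
    refine eq_top_iff.2 ?_
    have := pc_le_iSup lab Set.univ
    rw [Set.preimage_univ, pc_univ] at this
    simpa using this

theorem gdOf_W (lab : ι → Λ) (l : Λ) : (gdOf lab).W l = pc K (lab ⁻¹' {l}) := rfl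

theorem gdOf_up (lab : ι → Λ) (S : Set Λ) : (gdOf lab).up S = pc K (lab ⁻¹' S) :=
  le_antisymm ((gdOf lab).up_le fun _ hl => pc_mono
    (Set.preimage_mono (Set.singleton_subset_iff.2 hl))) (pc_le_iSup lab S)

/-- identities on a window are checked on generators -/
theorem eq_on_pc {M : Type*} [AddCommGroup M] [Module K M] {φ ψ : (ι → K) →ₗ[K] M} {S : Set ι}
    (h : ∀ i ∈ S, φ (Pi.single i 1) = ψ (Pi.single i 1)) {x : ι → K} (hx : x ∈ pc K S) :
    φ x = ψ x := by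
  rw [pi_eq_sum_univ' x, map_sum, map_sum]
  refine Finset.sum_congr rfl fun i _ => ?_
  by_cases hi : i ∈ S
  · rw [map_smul, map_smul, h i hi]
  · rw [hx i hi, zero_smul, map_zero, map_zero]

/-- coordinates on a piece -/
def pcEquiv (S : Set ι) : pc K S ≃ₗ[K] (S → K) :=
  LinearEquiv.ofBijective (LinearMap.funLeft K K Subtype.val ∘ₗ (pc K S).subtype)
    ⟨(injective_iff_map_eq_zero _).2 fun x h => Subtype.ext (funext fun i => by
      by_cases hi : i ∈ S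
      · exact congrFun h ⟨i, hi⟩
      · exact x.2 i hi), fun y => by
      classical
      exact ⟨⟨fun i => if h : i ∈ S then y ⟨i, h⟩ else 0, fun i hi => dif_neg hi⟩,
        funext fun i => dif_pos i.2⟩⟩

theorem finrank_pc (S : Set ι) : finrank K (pc K S) = S.ncard := by
  classical
  rw [(pcEquiv S).finrank_eq, finrank_fintype_fun_eq_card, ← Nat.card_eq_fintype_card,
    Nat.card_coe_set_eq]

theorem pc_eq_bot {S : Set ι} (h : ∀ i, i ∉ S) : pc K S = ⊥ :=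
  eq_bot_iff.2 fun _ hx => funext fun i => hx i (h i)

/-- on a piece with one generator, injectivity is one matrix entry -/
theorem inj_on_single {φ : (ι → K) →ₗ[K] (κ → K)} {S : Set ι} {i : ι} (hS : ∀ j ∈ S, j = i)
    (h : φ (Pi.single i 1) ≠ 0) : ∀ x ∈ pc K S, φ x = 0 → x = 0 := fun x hx h0 => by
  have e : x = x i • (Pi.single i 1 : ι → K) := funext fun j => by
    by_cases hj : j = i
    · subst hj
      simp
    · rw [hx j fun hs => hj (hS j hs)]
      simp [hj]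
  rw [e, map_smul] at h0
  rw [e, (smul_eq_zero.1 h0).resolve_right h, zero_smul]

end Gen

/-- The linear map with matrix `n`. -/
def mat {ι κ : Type} [Fintype ι] (n : ι → κ → K) : (ι → K) →ₗ[K] (κ → K) where
  toFun x k := ∑ i, x i * n i k
  map_add' x y := funext fun k => by simp [add_mul, Finset.sum_add_distrib]
  map_smul' r x := funext fun k => by simp [Finset.mul_sum, mul_assoc]

theorem mat_apply {ι κ : Type} [Fintype ι] (n : ι → κ → K) (x : ι → K) (k : κ) :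
    mat n x k = ∑ i, x i * n i k := rfl

theorem mat_single {ι κ : Type} [Fintype ι] [DecidableEq ι] (n : ι → κ → K) (i : ι) :
    mat n (Pi.single i 1) = n i := funext fun k => by
  simp [mat_apply, Pi.single_apply]

theorem sp_mat {ι κ : Type} [Fintype ι] [DecidableEq ι] {n : ι → κ → K} {r : ι → κ → Prop}
    (h : ∀ i k, n i k ≠ 0 → r i k) : Sp (mat n) r := fun i k h0 =>
  h i k (by rwa [mat_single] at h0)

/-- Generators at all levels. -/
structure Gen (L : Type) : Type 1 where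
  ι : ℕ → Type
  [ft : ∀ m, Fintype (ι m)]
  [de : ∀ m, DecidableEq (ι m)]
  [fin : Finite L]
  lab : ∀ m, ι m → L × ℚ
  w : L → ℚ
  lat : ∀ m i, ∃ k : ℕ, (lab m i).2 = w (lab m i).1 + k
  bd : ∀ l, ∃ B : ℕ, ∀ᶠ m in atTop, (lab m ⁻¹' {l}).ncard ≤ B

attribute [instance] Gen.ft Gen.de

namespace Gen

variable {L L' : Type} (A : Gen L) {B : Gen L'}

/-- the graded spaces -/
def wg : WG L where
  H m := A.ι m → K
  fin := A.fin
  g m := gdOf (A.lab m)
  w := A.w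
  lat m l h := by
    by_contra hn
    refine h (pc_eq_bot fun i (hi : A.lab m i = l) => hn ?_)
    exact hi ▸ A.lat m i
  dim l := (A.bd l).imp fun _ h => h.mono fun m hm =>
    ⟨inferInstanceAs (FiniteDimensional K (pc K _)), (finrank_pc _).trans_le hm⟩

theorem le_eq (m : ℕ) (a : ℚ) : A.wg.le m a = pc K {i | (A.lab m i).2 ≤ a} := gdOf_up _ _

/-- local identities between linear maps are checked on generators -/
theorem loc {M : ℕ → Type} [∀ m, AddCommGroup (M m)] [∀ m, Module K (M m)]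
    (φ ψ : ∀ m, (A.ι m → K) →ₗ[K] M m)
    (h : ∀ a, ∀ᶠ m in atTop, ∀ i, (A.lab m i).2 ≤ a → φ m (Pi.single i 1) = ψ m (Pi.single i 1)) :
    A.wg.Loc fun m y => φ m y = ψ m y := fun a => (h a).mono fun m hm _ hy =>
  eq_on_pc (S := {i | (A.lab m i).2 ≤ a}) hm (A.le_eq m a ▸ hy)

/-- the complex with differential given by matrices -/
def wc (n : ∀ m, A.ι m → A.ι m → K) (hom : ∀ m i k, n m i k ≠ 0 → A.lab m k = sh (A.lab m i))
    (dd : ∀ a, ∀ᶠ m in atTop, ∀ i, (A.lab m i).2 ≤ a → ∀ k, ∑ j, n m i j * n m j k = 0) :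
    WC L where
  toWG := A.wg
  d m := mat (n m)
  hom m l y hy := (sp_mat (hom m)).mem (S := A.lab m ⁻¹' {l}) (T := A.lab m ⁻¹' {sh l})
    (fun i (hi : A.lab m i = l) k hk => hk.trans (congrArg sh hi)) hy
  dd := A.loc (fun m => mat (n m) ∘ₗ mat (n m)) (fun _ => 0) fun a => (dd a).mono fun m h i hi =>
    funext fun k => by rw [LinearMap.comp_apply, mat_single]; exact h i hi k

variable {A}

/-- a bounded family of maps given by matrices -/
def wm (n : ∀ m, A.ι m → B.ι m → K)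
    (h : ∀ a, ∃ b, ∀ᶠ m in atTop, ∀ i k, (A.lab m i).2 ≤ a → n m i k ≠ 0 → (B.lab m k).2 ≤ b) :
    WM A.wg B.wg where
  φ m := mat (n m)
  bd a := (h a).imp fun b hb => hb.mono fun m hm y hy => by
    rw [B.le_eq]
    exact (sp_mat (n := n m) (r := fun i k => n m i k ≠ 0) fun _ _ h => h).mem
      (S := {i | (A.lab m i).2 ≤ a}) (fun i hi k hk => hm i k hi hk) (A.le_eq m a ▸ hy)

theorem mat_up {m : ℕ} {n : A.ι m → B.ι m → K} {l : L × ℚ} {T : Set (L' × ℚ)}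
    (h : ∀ i k, A.lab m i = l → n i k ≠ 0 → B.lab m k ∈ T) :
    ∀ y ∈ (A.wg.g m).W l, mat n y ∈ (B.wg.g m).up T := fun y hy => by
  show mat n y ∈ (gdOf (B.lab m)).up T
  rw [gdOf_up]
  exact (sp_mat (n := n) (r := fun i k => n i k ≠ 0) fun _ _ h => h).mem
    (S := A.lab m ⁻¹' {l}) (fun i hi k hk => h i k hi hk) hy

theorem mat_W {m : ℕ} {n : A.ι m → B.ι m → K} {l : L × ℚ} {l' : L' × ℚ}
    (h : ∀ i k, A.lab m i = l → n i k ≠ 0 → B.lab m k = l') :
    ∀ y ∈ (A.wg.g m).W l, mat n y ∈ (B.wg.g m).W l' := fun y hy => by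
  have := mat_up (T := {l'}) h y hy
  rwa [Gd.up_single] at this

end Gen

end Crest.Agent.X212.Win22
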