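import Crest.Agent.X212.Bor5.Win

/-!
Towers: construction of the tower elements from the high degrees, and three facts on `Ob`.
-/

set_option autoImplicit false

open Module Function Filter

noncomputable section

namespace Crest.Agent.X212.Win22

open Bor5

theorem k_cases (c : K) : c = 0 ∨ c = 1 := by
  revert c
  decide

section

variable {H : Type*} [AddCommGroup H] [Module K H]

theorem eq_of_mem_span {a b : H} (h : a ∈ K ∙ b) (ha : a ≠ 0) : a = b := by
  obtain ⟨c, rfl⟩ := Submodule.mem_span_singleton.1 h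
  rcases k_cases c with rfl | rfl
  · exact (ha (zero_smul _ _)).elim
  · exact one_smul _ _

theorem le_span_of_finrank {S : Submodule K H} (h : finrank K S = 1) {b : H} (hb : b ∈ S)
    (h0 : b ≠ 0) : S ≤ K ∙ b := fun a ha => by
  obtain ⟨c, hc⟩ := (finrank_eq_one_iff_of_nonzero' (⟨b, hb⟩ : S)
    fun e => h0 (congrArg Subtype.val e)).1 h ⟨a, ha⟩
  exact Submodule.mem_span_singleton.2 ⟨c, congrArg Subtype.val hc⟩

theorem exists_ne_of_finrank {S : Submodule K H} (h : finrank K S = 1) : ∃ b ∈ S, b ≠ 0 := by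
  refine (Submodule.ne_bot_iff _).1 fun e => ?_
  rw [e, finrank_bot] at h
  exact zero_ne_one h

theorem exists_tower (U : H →ₗ[K] H) (G : ℤ → Submodule K H) (N : ℕ)
    (hU : ∀ j, ∀ y ∈ G (j + 1), U y ∈ G j) (h1 : ∀ j : ℤ, (N : ℤ) ≤ j → finrank K (G j) = 1)
    (hi : ∀ j : ℤ, (N : ℤ) ≤ j → ∀ y ∈ G (j + 1), U y = 0 → y = 0)
    (h0 : ∀ j < 0, G j = ⊥) :
    ∃ (E : ℤ → H) (j0 : ℤ), (∀ j, E j ∈ G j) ∧ (∀ j, U (E (j + 1)) = E j) ∧
      (∀ j, E j ≠ 0 ↔ j0 ≤ j) ∧ j0 ≤ N := by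
  classical
  have hg : ∀ j : ℤ, ∃ b ∈ G j, (N : ℤ) ≤ j → b ≠ 0 := fun j => by
    by_cases h : (N : ℤ) ≤ j
    · obtain ⟨b, hb, hb0⟩ := exists_ne_of_finrank (h1 j h)
      exact ⟨b, hb, fun _ => hb0⟩
    · exact ⟨0, zero_mem _, fun h' => (h h').elim⟩
  choose g gm g0 using hg
  have gU : ∀ j : ℤ, (N : ℤ) ≤ j → U (g (j + 1)) = g j := fun j hj =>
    eq_of_mem_span (le_span_of_finrank (h1 j hj) (gm j) (g0 j hj) (hU j _ (gm _)))
      fun e => g0 (j + 1) (by omega) (hi j hj _ (gm _) e)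
  let E : ℤ → H := fun j => if (N : ℤ) ≤ j then g j else (U ^ ((N : ℤ) - j).toNat) (g N)
  have low : ∀ j : ℤ, j ≤ N → E j = (U ^ ((N : ℤ) - j).toNat) (g N) := fun j hj => by
    by_cases h : (N : ℤ) ≤ j
    · obtain rfl : j = N := le_antisymm hj h
      simp [E]
    · simp [E, h]
  have EU : ∀ j, U (E (j + 1)) = E j := fun j => by
    by_cases h : (N : ℤ) ≤ j
    · have h' : (N : ℤ) ≤ j + 1 := by omega
      simp only [E, if_pos h, if_pos h', gU j h]
    · rw [low j (by omega), low (j + 1) (by omega),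
        show ((N : ℤ) - j).toNat = ((N : ℤ) - (j + 1)).toNat + 1 by omega, pow_succ']
      rfl
  have Em : ∀ j, E j ∈ G j := fun j => by
    by_cases h : (N : ℤ) ≤ j
    · simp only [E, if_pos h, gm j]
    · have : ∀ n : ℕ, E (N - n) ∈ G (N - n) := fun n => by
        induction n with
        | zero => simpa [E] using gm N
        | succ n ih =>
          rw [← EU]
          refine hU _ _ ?_
          rwa [show (N : ℤ) - (n + 1 : ℕ) + 1 = N - n by push_cast; ring]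
      have e := this ((N : ℤ) - j).toNat
      rwa [show (N : ℤ) - (((N : ℤ) - j).toNat : ℕ) = j by omega] at e
  have EN : E N ≠ 0 := by simpa [E] using g0 N le_rfl
  obtain ⟨j0, hj0, hmin⟩ := Int.exists_least_of_bdd (P := fun j => E j ≠ 0)
    ⟨0, fun j hj => by
      by_contra h
      exact hj (by simpa [h0 j (by omega)] using Em j)⟩ ⟨N, EN⟩
  refine ⟨E, j0, Em, EU, fun j => ⟨hmin j, fun h => ?_⟩, hmin _ EN⟩
  induction j, h using Int.leInduction with
  | base => exact hj0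
  | succ j _ ih => exact fun e => ih (by rw [← EU, e, map_zero])

/-- A surjective graded map is onto on every piece. -/
theorem map_piece {F A B I J : Type*} [Field F] [AddCommGroup A] [Module F A] [AddCommGroup B]
    [Module F B] {W : I → Submodule F A} {W' : J → Submodule F B} (top : ⨆ i, W i = ⊤)
    (ind : iSupIndep W') {τ : I → J} (hτ : Injective τ) {g : A →ₗ[F] B} (hg : Surjective g)
    (h : ∀ i, ∀ y ∈ W i, g y ∈ W' (τ i)) (i : I) {z : B} (hz : z ∈ W' (τ i)) :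
    ∃ y ∈ W i, g y = z := by
  obtain ⟨y, rfl⟩ := hg z
  have hy : y ∈ W i ⊔ ⨆ (j) (_ : j ≠ i), W j := by
    rw [← iSup_split_single, top]
    trivial
  obtain ⟨a, ha, b, hb, rfl⟩ := Submodule.mem_sup.1 hy
  have hb' : g b ∈ ⨆ (k) (_ : k ≠ τ i), W' k := by
    have : (⨆ (j) (_ : j ≠ i), W j) ≤ (⨆ (k) (_ : k ≠ τ i), W' k).comap g :=
      iSup₂_le fun j hj y hy => le_iSup₂_of_le (f := fun k (_ : k ≠ τ i) => W' k) (τ j)
        (fun e => hj (hτ e)) le_rfl (h j y hy)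
    exact this hb
  have h0 : g b = 0 := Submodule.disjoint_def.1 (ind (τ i)) _
    (by simpa using sub_mem hz (h i a ha)) hb'
  exact ⟨a, ha, by rw [map_add, h0, add_zero]⟩

end

/-- A pure object is recognised from its graded pieces. -/
theorem pure_of (X : Ob) (D : ZMod X.P → ℚ)
    (h1 : ∀ s (k : ℕ), finrank K (X.gr s (D s + 2 * k)) = 1 ∧
      ∀ y ∈ X.gr s (D s + 2 * k + 2), X.U y = 0 → y = 0)
    (h0 : ∀ s x, (¬∃ k : ℕ, x = D s + 2 * k) → X.gr s x = ⊥) :
    X.Pure ∧ ∀ s, X.d s = D s := by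
  have hd : ∀ s, X.d s = D s := fun s => by
    have e0 : X.e s (X.d s) ≠ 0 := (X.e_ne s _).2 ⟨0, by simp⟩
    obtain ⟨k, hk⟩ : ∃ k : ℕ, X.d s = D s + 2 * k := by
      by_contra h
      exact e0 (by simpa [h0 s _ h] using X.e_mem s (X.d s))
    rcases k with _ | k
    · simpa using hk
    · exfalso
      refine e0 ((h1 s k).2 _ ?_ ?_)
      · rw [show D s + 2 * (k : ℚ) + 2 = X.d s by rw [hk]; push_cast; ring]
        exact X.e_mem s _
      · rw [X.U_e]
        by_contra h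
        obtain ⟨n, hn⟩ := (X.e_ne s _).1 h
        have : (0 : ℚ) ≤ n := Nat.cast_nonneg n
        linarith
  refine ⟨eq_top_iff.2 ?_, hd⟩
  rw [← X.top]
  refine iSup_le fun i => ?_
  by_cases h : ∃ k : ℕ, i.2 = D i.1 + 2 * k
  · obtain ⟨k, hk⟩ := h
    refine (le_span_of_finrank (by rw [hk]; exact (h1 _ k).1) (X.e_mem i.1 i.2)
      ((X.e_ne _ _).2 ⟨k, by rw [hd, hk]⟩)).trans (Submodule.span_mono ?_)
    rintro _ rfl
    exact ⟨_, _, rfl⟩
  · rw [h0 _ _ h]
    exact bot_le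

/-- In high degrees there is only the tower. -/
theorem exists_high (X : Ob) : ∃ N : ℚ, ∀ s x, N ≤ x → X.gr s x ≤ K ∙ X.e s x := by
  obtain ⟨N, hN⟩ := (X.fin.image Prod.snd).bddAbove
  refine ⟨N + 1, fun s x hx => by_contra fun h => ?_⟩
  have := hN ⟨(s, x), h, rfl⟩
  simp only at this
  linarith

/-- A homogeneous map that is injective in high degrees matches the towers there. -/
theorem tow_of (A B : Ob) (φ : A.H →ₗ[K] B.H) (s : ZMod A.P) (t : ZMod B.P) (δ : ℚ)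
    (hm : ∀ x, ∀ y ∈ A.gr s x, φ y ∈ B.gr t (x + δ)) {k : ℤ} (hk : B.d t = A.d s + δ + 2 * k)
    {N0 : ℚ} (hi : ∀ x, N0 ≤ x → ∀ y ∈ A.gr s x, φ y = 0 → y = 0) :
    ∃ N, ∀ x, N ≤ x → φ (A.e s x) = B.e t (x + δ) := by
  obtain ⟨M, hM⟩ := exists_high B
  refine ⟨max N0 (max (M - δ) (A.d s)), fun x hx => ?_⟩
  simp only [max_le_iff] at hx
  by_cases h : A.e s x = 0
  · rw [h, map_zero]
    by_contra h'
    obtain ⟨n, hn⟩ := (B.e_ne t _).1 (Ne.symm h')
    have e : x = A.d s + 2 * ((k + n : ℤ) : ℚ) := by push_cast; linarith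
    have h2 : 0 ≤ k + n := by
      have : (0 : ℚ) ≤ ((k + n : ℤ) : ℚ) := by linarith [hx.2.2]
      exact_mod_cast this
    obtain ⟨r, hr⟩ := Int.eq_ofNat_of_zero_le h2
    exact (A.e_ne s x).2 ⟨r, by rw [e, hr, Int.cast_natCast]⟩ h
  · exact eq_of_mem_span (hM t _ (by linarith [hx.2.1]) (hm x _ (A.e_mem s x)))
      fun e => h (hi x hx.1 _ (A.e_mem s x) e)

end Crest.Agent.X212.Win22
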