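import Crest.Agent.X212.Win22.Ul
import Crest.Agent.X212.Win22.Tow

/-!
LIM: the ultralimit of the window theory.
-/

set_option autoImplicit false

open Module Function Filter

noncomputable section

namespace Crest.Agent.X212.Win22

open Bor5

/-- the ultrafilter -/
abbrev uf : Filter ℕ := (hyperfilter ℕ : Filter ℕ)

theorem ev_uf {p : ℕ → Prop} (h : ∀ᶠ m in atTop, p m) : ∀ᶠ m in uf, p m :=
  h.filter_mono (Nat.cofinite_eq_atTop ▸ hyperfilter_le_cofinite)

section One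

variable (X : WOb)

/-- limit pieces -/
def LW (i : ZMod X.P × ℚ) : Submodule K (UP K uf X.H) := ul uf fun m => X.gr m i.1 i.2

/-- limit space -/
abbrev LH : Type := ↥(⨆ i, LW X i)

/-- limit windows -/
def Lle (a : ℚ) : Submodule K (UP K uf X.H) := ul uf fun m => X.le m a

theorem gr_le_le (m : ℕ) (s : ZMod X.P) {x a : ℚ} (h : x ≤ a) : X.gr m s x ≤ X.le m a :=
  le_iSup_of_le s (le_iSup₂_of_le (f := fun x (_ : x ≤ a) => X.gr m s x) x h le_rfl)

theorem le_mono (m : ℕ) {a b : ℚ} (h : a ≤ b) : X.le m a ≤ X.le m b :=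
  iSup_le fun s => iSup₂_le fun _ hx => gr_le_le X m s (hx.trans h)

theorem Lle_le (a : ℚ) : Lle X a ≤ ⨆ i, LW X i := by
  have : NeZero X.P := ⟨X.pos.ne'⟩
  let T : Set (ZMod X.P × ℚ) := {i | i.2 ≤ a ∧ ∃ k : ℕ, i.2 = X.w i.1 + k}
  have hT : T.Finite := by
    refine (Set.finite_iUnion fun s : ZMod X.P =>
      (Set.finite_le_nat ⌈a - X.w s⌉₊).image fun k : ℕ => (s, X.w s + k)).subset ?_
    rintro ⟨s, x⟩ ⟨h1, k, hk⟩
    obtain rfl : x = X.w s + k := hk
    refine Set.mem_iUnion.2 ⟨s, k, ?_, rfl⟩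
    have h2 : (k : ℚ) ≤ a - X.w s := by
      have : X.w s + k ≤ a := h1
      linarith
    exact_mod_cast h2.trans (Nat.le_ceil _)
  refine le_trans (ul_mono (T := fun m => ⨆ i ∈ T, X.gr m i.1 i.2)
    (Eventually.of_forall fun m => iSup_le fun s => iSup₂_le fun x hx => ?_))
    ((ul_iSup_le (fun m (i : ZMod X.P × ℚ) => X.gr m i.1 i.2) hT).trans
      (iSup₂_le fun i _ => le_iSup (LW X) i))
  by_cases h : X.gr m s x = ⊥
  · rw [h]
    exact bot_le
  · exact le_iSup₂_of_le (f := fun (i : ZMod X.P × ℚ) (_ : i ∈ T) => X.gr m i.1 i.2) (s, x)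
      ⟨hx, X.lat m s x h⟩ le_rfl

theorem exists_Lle (y : LH X) : ∃ a, y.1 ∈ Lle X a := by
  obtain ⟨y, hy⟩ := y
  induction hy using Submodule.iSup_induction' with
  | mem i y hy => exact ⟨i.2, ul_mono (Eventually.of_forall fun m => gr_le_le X m i.1 le_rfl) hy⟩
  | zero => exact ⟨0, zero_mem _⟩
  | add y z _ _ hy hz =>
    obtain ⟨a, ha⟩ := hy
    obtain ⟨b, hb⟩ := hz
    exact ⟨max a b, add_mem
      (ul_mono (Eventually.of_forall fun m => le_mono X m (le_max_left _ _)) ha)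
      (ul_mono (Eventually.of_forall fun m => le_mono X m (le_max_right _ _)) hb)⟩

variable {X} in
/-- the limit of a family of maps that is homogeneous on every piece -/
def Lmap {Y : WOb} (f : ∀ m, X.H m →ₗ[K] Y.H m)
    (h : ∀ s x, ∃ t x', ∀ m, ∀ y ∈ X.gr m s x, f m y ∈ Y.gr m t x') : LH X →ₗ[K] LH Y :=
  (umap uf f).restrict fun y hy => (iSup_le (a := (⨆ i, LW Y i).comap (umap uf f)) fun i z hz => by
    obtain ⟨t, x', e⟩ := h i.1 i.2
    exact le_iSup (LW Y) (t, x') (umap_mem (Eventually.of_forall e) hz)) hy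

theorem Lmap_val {Y : WOb} (f : ∀ m, X.H m →ₗ[K] Y.H m) (h) (y : LH X) :
    (Lmap f h y).1 = umap uf f y.1 := rfl

/-- limit grading -/
def Lgr (s : ZMod X.P) (x : ℚ) : Submodule K (LH X) := sub (LW X) (s, x)

/-- limit `U` -/
def LU : LH X →ₗ[K] LH X := Lmap X.U fun s x => ⟨s, x - 2, fun m y hy => X.U_mem m s x y hy⟩

theorem LU_mem (s : ZMod X.P) (x : ℚ) (y : LH X) (hy : y ∈ Lgr X s x) :
    LU X y ∈ Lgr X s (x - 2) :=
  umap_mem (Eventually.of_forall fun m y hy => X.U_mem m s x y hy) hy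

theorem Lgr_bot {s : ZMod X.P} {x : ℚ} (h : ∀ᶠ m in atTop, X.gr m s x = ⊥) : Lgr X s x = ⊥ := by
  refine eq_bot_iff.2 fun y hy => Subtype.ext ?_
  have : y.1 ∈ ul uf fun m => X.gr m s x := hy
  rwa [ul_eq_bot (ev_uf h)] at this

theorem Lgr_fd (s : ZMod X.P) (x : ℚ) : FiniteDimensional K (Lgr X s x) := by
  obtain ⟨B, hB⟩ := X.dim s x
  have : FiniteDimensional K (LW X (s, x)) := (ul_fd (hyperfilter ℕ) (ev_uf hB)).1
  exact (subEquiv (LW X) (s, x)).symm.finiteDimensional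

theorem Lgr_one {s : ZMod X.P} {x : ℚ} (h : ∀ᶠ m in atTop, finrank K (X.gr m s x) = 1) :
    finrank K (Lgr X s x) = 1 := by
  have h1 := ul_fd (hyperfilter ℕ) (S := fun m => X.gr m s x) (C := 1)
    (ev_uf (h.mono fun m hm => ⟨finite_of_finrank_eq_succ hm, hm.le⟩))
  have h2 : LW X (s, x) ≠ ⊥ := ul_ne_bot (ev_uf (h.mono fun m hm e => by
    rw [e, finrank_bot] at hm
    exact zero_ne_one hm))
  have : FiniteDimensional K (LW X (s, x)) := h1.1
  have h3 : finrank K (LW X (s, x)) ≠ 0 := fun e => h2 (Submodule.finrank_eq_zero.1 e)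
  have h4 : finrank K (LW X (s, x)) ≤ 1 := h1.2
  rw [Lgr, (subEquiv (LW X) (s, x)).finrank_eq]
  omega

theorem LU_inj {s : ZMod X.P} {x : ℚ}
    (h : ∀ᶠ m in atTop, ∀ y ∈ X.gr m s x, X.U m y = 0 → y = 0) :
    ∀ y ∈ Lgr X s x, LU X y = 0 → y = 0 := fun _ hy h0 =>
  Subtype.ext (umap_inj (ev_uf h) hy (congrArg Subtype.val h0))

theorem Lgr_lat {s : ZMod X.P} {x : ℚ} (h : ¬∃ k : ℕ, x = X.w s + k) : Lgr X s x = ⊥ :=
  Lgr_bot X (Eventually.of_forall fun m => by_contra fun e => h (X.lat m s x e))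

theorem Ltower (s : ZMod X.P) : ∃ (E : ℤ → LH X) (j0 : ℤ),
    (∀ j : ℤ, E j ∈ Lgr X s (X.w s + 2 * j)) ∧ (∀ j, LU X (E (j + 1)) = E j) ∧
      (∀ j, E j ≠ 0 ↔ j0 ≤ j) ∧ j0 ≤ X.N := by
  have key : ∀ j : ℤ, (X.N : ℤ) ≤ j → ∃ k : ℕ, X.N ≤ k ∧ Even k ∧ (2 * j : ℚ) = k := fun j hj => by
    obtain ⟨r, rfl⟩ := Int.eq_ofNat_of_zero_le (le_trans (Int.natCast_nonneg _) hj)
    exact ⟨2 * r, by omega, even_two_mul r, by push_cast; rfl⟩
  refine exists_tower (LU X) (fun j => Lgr X s (X.w s + 2 * j)) X.N (fun j y hy => ?_)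
    (fun j hj => ?_) (fun j hj => ?_) fun j hj => Lgr_lat X ?_
  · have := LU_mem X s _ y hy
    rwa [show X.w s + 2 * ((j + 1 : ℤ) : ℚ) - 2 = X.w s + 2 * j by push_cast; ring] at this
  · obtain ⟨k, h1, h2, e⟩ := key j hj
    rw [e]
    exact Lgr_one X ((X.ev s k h1 h2).mono fun _ h => h.1)
  · obtain ⟨k, h1, h2, e⟩ := key j hj
    rw [show X.w s + 2 * ((j + 1 : ℤ) : ℚ) = X.w s + k + 2 by rw [← e]; push_cast; ring]
    exact LU_inj X ((X.ev s k h1 h2).mono fun _ h => h.2)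
  · rintro ⟨k, hk⟩
    have h1 : (j : ℚ) < 0 := by exact_mod_cast hj
    have h2 : (0 : ℚ) ≤ k := Nat.cast_nonneg k
    linarith

/-- tower elements by index -/
def LE (s : ZMod X.P) : ℤ → LH X := (Ltower X s).choose

/-- index of the bottom -/
def Lj (s : ZMod X.P) : ℤ := (Ltower X s).choose_spec.choose

theorem LE_spec (s : ZMod X.P) :
    (∀ j : ℤ, LE X s j ∈ Lgr X s (X.w s + 2 * j)) ∧ (∀ j, LU X (LE X s (j + 1)) = LE X s j) ∧
      (∀ j, LE X s j ≠ 0 ↔ Lj X s ≤ j) ∧ Lj X s ≤ X.N := (Ltower X s).choose_spec.choose_spec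

open Classical in
/-- tower elements by degree -/
def Le (s : ZMod X.P) (x : ℚ) : LH X :=
  if h : ∃ j : ℤ, x = X.w s + 2 * j then LE X s h.choose else 0

theorem Le_eq (s : ZMod X.P) (j : ℤ) : Le X s (X.w s + 2 * j) = LE X s j := by
  have h : ∃ i : ℤ, X.w s + 2 * j = X.w s + 2 * i := ⟨j, rfl⟩
  have e : (j : ℚ) = h.choose := by linarith [h.choose_spec]
  rw [Le, dif_pos h, ← Int.cast_injective e]

theorem Le_not {s : ZMod X.P} {x : ℚ} (h : ¬∃ j : ℤ, x = X.w s + 2 * j) : Le X s x = 0 :=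
  dif_neg h

/-- the limit object -/
def ob : Ob where
  H := LH X
  P := X.P
  pos := X.pos
  gr := Lgr X
  ind := sub_indep (LW X) (ul_indep (W := fun m (i : ZMod X.P × ℚ) => X.gr m i.1 i.2)
    (Eventually.of_forall X.ind))
  top := sub_top (LW X)
  fd := Lgr_fd X
  U := LU X
  U_mem := LU_mem X
  d s := X.w s + 2 * Lj X s
  e := Le X
  e_mem s x := by
    by_cases h : ∃ j : ℤ, x = X.w s + 2 * j
    · obtain ⟨j, rfl⟩ := h
      rw [Le_eq]
      exact (LE_spec X s).1 j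
    · rw [Le_not X h]
      exact zero_mem _
  e_ne s x := by
    constructor
    · intro h0
      obtain ⟨j, rfl⟩ : ∃ j : ℤ, x = X.w s + 2 * j := by_contra fun h => h0 (Le_not X h)
      rw [Le_eq, (LE_spec X s).2.2.1] at h0
      obtain ⟨k, rfl⟩ := Int.le.dest h0
      exact ⟨k, by push_cast; ring⟩
    · rintro ⟨k, rfl⟩
      rw [show X.w s + 2 * (Lj X s : ℚ) + 2 * k = X.w s + 2 * ((Lj X s + k : ℤ) : ℚ) by
        push_cast; ring, Le_eq, (LE_spec X s).2.2.1]
      omega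
  U_e s x := by
    by_cases h : ∃ j : ℤ, x = X.w s + 2 * j
    · obtain ⟨j, rfl⟩ := h
      rw [show X.w s + 2 * (j : ℚ) - 2 = X.w s + 2 * ((j - 1 : ℤ) : ℚ) by push_cast; ring,
        Le_eq, Le_eq, ← (LE_spec X s).2.1 (j - 1), sub_add_cancel]
    · rw [Le_not X h, map_zero, Le_not]
      rintro ⟨j, hj⟩
      exact h ⟨j + 1, by push_cast; linarith⟩
  fin := by
    have : NeZero X.P := ⟨X.pos.ne'⟩
    refine (Set.finite_iUnion fun s : ZMod X.P =>
      (Set.finite_lt_nat (2 * X.N)).image fun k : ℕ => (s, X.w s + k)).subset ?_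
    rintro ⟨s, x⟩ h
    obtain ⟨k, rfl⟩ : ∃ k : ℕ, x = X.w s + k := by_contra fun e => h (by
      rw [Lgr_lat X e]; exact bot_le)
    refine Set.mem_iUnion.2 ⟨s, k, by_contra fun hk => h ?_, rfl⟩
    have hk' : 2 * X.N ≤ k := not_lt.1 hk
    rcases Nat.even_or_odd k with he | ho
    · have h1 := Lgr_one X ((X.ev s k (by omega) he).mono fun _ h => h.1)
      obtain ⟨r, rfl⟩ := he
      have e : X.w s + ((r + r : ℕ) : ℚ) = X.w s + 2 * ((r : ℤ) : ℚ) := by push_cast; ring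
      rw [e] at h1
      show Lgr X s (X.w s + ((r + r : ℕ) : ℚ)) ≤ K ∙ Le X s (X.w s + ((r + r : ℕ) : ℚ))
      rw [e, Le_eq]
      exact le_span_of_finrank h1 ((LE_spec X s).1 r)
        (((LE_spec X s).2.2.1 r).2 ((LE_spec X s).2.2.2.trans (by omega)))
    · rw [Lgr_bot X (X.od s k (by omega) ho)]
      exact bot_le

open Classical in
/-- the element defined by a sequence -/
def el (y : ∀ m, X.H m) : LH X := if h : um K uf y ∈ ⨆ i, LW X i then ⟨_, h⟩ else 0

variable {X}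

theorem el_val {y : ∀ m, X.H m} {a : ℚ} (h : ∀ᶠ m in uf, y m ∈ X.le m a) :
    (el X y).1 = um K uf y := by
  rw [el, dif_pos (Lle_le X a (um_mem.2 h))]

theorem el_surj (z : LH X) : ∃ y a, (∀ m, y m ∈ X.le m a) ∧ um K uf y = z.1 := by
  obtain ⟨a, ha⟩ := exists_Lle X z
  obtain ⟨y, hy, e⟩ := exists_rep ha
  exact ⟨y, a, hy, e⟩

end One

section Fam

variable {A B C : WOb} (f : WFam A B)

theorem hom_F (κ : ℤ) (s : ZMod A.P) (x : ℚ) :
    ∃ t x', ∀ m, ∀ y ∈ A.gr m s x, f.F m κ y ∈ B.gr m t x' := by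
  refine ⟨f.t κ, x + f.dg κ, fun m y hy => ?_⟩
  by_cases h : s = f.s κ
  · subst h
    exact f.map m κ x y hy
  · rw [f.off m κ s x y h hy]
    exact zero_mem _

/-- the limit family -/
def fam : Fam (ob A) (ob B) where
  F κ := Lmap (fun m => f.F m κ) (hom_F f κ)
  s := f.s
  t := f.t
  dg := f.dg
  map κ x _ hy := umap_mem (Eventually.of_forall fun m y hy => f.map m κ x y hy) hy
  off κ c x _ hc hy :=
    Subtype.ext (umap_eq_zero (Eventually.of_forall fun m y hy => f.off m κ c x y hc hy) hy)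
  U κ y := by
    obtain ⟨z, a, hz, e⟩ := el_surj y
    apply Subtype.ext
    show umap uf _ (umap uf _ y.1) = umap uf _ (umap uf _ y.1)
    rw [← e]
    exact um_eq.2 ((ev_uf (f.U κ a)).mono fun m h => h _ (hz m))
  fin y := by
    obtain ⟨a, ha⟩ := exists_Lle A y
    obtain ⟨S, hS⟩ := f.ufin a
    refine S.finite_toSet.subset fun κ hκ => by_contra fun h => hκ ?_
    exact Subtype.ext (umap_eq_zero ((ev_uf hS).mono fun m hm => hm κ h) ha)

theorem tot_val {y : LH A} {x : ∀ m, A.H m} (e : um K uf x = y.1) :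
    ((fam f).tot y).1 = um K uf fun m => f.tot m (x m) := by
  obtain ⟨a, ha⟩ := exists_Lle A y
  obtain ⟨S, hS⟩ := f.ufin a
  have e1 : (fam f).tot y = ∑ κ ∈ S, (fam f).F κ y :=
    finsum_eq_sum_of_support_subset _ fun κ hκ => by_contra fun h => hκ
      (Subtype.ext (umap_eq_zero ((ev_uf hS).mono fun m hm => hm κ h) ha))
  have e2 : ∀ κ, ((fam f).F κ y).1 = um K uf fun m => f.F m κ (x m) := fun κ => by
    show umap uf _ y.1 = _
    rw [← e, umap_um]
  have e3 : (∑ κ ∈ S, (fam f).F κ y).1 = ∑ κ ∈ S, ((fam f).F κ y).1 :=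
    map_sum (⨆ i, LW B i).subtype _ S
  rw [e1, e3]
  simp only [e2]
  rw [← map_sum]
  rw [← e] at ha
  refine um_eq.2 (((ev_uf hS).and (um_mem.1 ha)).mono fun m hm => ?_)
  rw [Finset.sum_apply]
  exact (finsum_eq_sum_of_support_subset _ fun κ hκ => by_contra fun h =>
    hκ (hm.1 κ h _ hm.2)).symm

theorem fam_ex (g : WFam B C) (h : f.Ex g) : Exact (fam f).tot (fam g).tot := fun y => by
  constructor
  · intro h0
    obtain ⟨x, a, hx, e⟩ := el_surj y
    obtain ⟨a', ha⟩ := h.2 a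
    have h1 : ∀ᶠ m in uf, g.tot m (x m) = 0 :=
      um_eq_zero.1 ((tot_val g e).symm.trans (congrArg Subtype.val h0))
    have : ∀ m, ∃ z ∈ A.le m a', (∃ z ∈ A.le m a', f.tot m z = x m) → f.tot m z = x m := fun m => by
      by_cases hm : ∃ z ∈ A.le m a', f.tot m z = x m
      · obtain ⟨z, hz, e⟩ := hm
        exact ⟨z, hz, fun _ => e⟩
      · exact ⟨0, zero_mem _, fun h => (hm h).elim⟩
    choose z hz ez using this
    refine ⟨el A z, Subtype.ext ?_⟩
    rw [tot_val f (el_val (Eventually.of_forall hz)).symm, ← e]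
    exact um_eq.2 (((ev_uf ha).and h1).mono fun m hm => ez m (hm.1 _ (hx m) hm.2))
  · rintro ⟨z, rfl⟩
    obtain ⟨x, a, hx, e⟩ := el_surj z
    apply Subtype.ext
    rw [tot_val g (tot_val f e).symm]
    exact um_eq_zero.2 ((ev_uf (h.1 a)).mono fun m hm => hm _ (hx m))

end Fam

/-- A graded map that is injective on every piece is injective. -/
theorem inj_of_piece {F A B I J : Type*} [Field F] [AddCommGroup A] [Module F A] [AddCommGroup B]
    [Module F B] {W : I → Submodule F A} {W' : J → Submodule F B} (top : ⨆ i, W i = ⊤)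
    (ind : iSupIndep W') {τ : I → J} (hτ : Injective τ) {g : A →ₗ[F] B}
    (h : ∀ i, ∀ y ∈ W i, g y ∈ W' (τ i)) (hi : ∀ i, ∀ y ∈ W i, g y = 0 → y = 0) :
    Injective g := by
  refine (injective_iff_map_eq_zero g).2 fun y h0 => ?_
  obtain ⟨v, hv, rfl⟩ := (Submodule.mem_iSup_iff_exists_finsupp W y).1 (top ▸ trivial)
  rw [Finsupp.sum, map_sum] at h0
  exact Finset.sum_eq_zero fun i hs => hi i _ (hv i)
    ((iSupIndep_iff_finsetSum_eq_zero_imp_eq_zero _).1 (ind.comp hτ) v.support (fun i => g (v i))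
      (fun i _ => h i _ (hv i)) h0 i hs)

theorem iso {X Y : WOb} (i : WIso X Y) : Nonempty (Iso (ob X) (ob Y)) := by
  let g : LH X →ₗ[K] LH Y := Lmap i.g fun s x => ⟨i.φ s, x, fun m y hy => i.map m s x y hy⟩
  have hmap : ∀ s x, (Lgr X s x).map g = Lgr Y (i.φ s) x := fun s x => by
    refine le_antisymm ?_ fun z hz => ?_
    · rintro _ ⟨y, hy, rfl⟩
      exact umap_mem (Eventually.of_forall fun m y hy => i.map m s x y hy) hy
    · obtain ⟨w, hw, e⟩ := exists_rep (S := fun m => Y.gr m (i.φ s) x) hz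
      obtain ⟨y, hy, e'⟩ := umap_surj (l := uf) (f := i.g) (S := fun m => X.gr m s x) (z := w)
        ((ev_uf (i.bij s x)).mono fun m hm => hm.surjOn (hw m))
      exact ⟨⟨y, le_iSup (LW X) (s, x) hy⟩, hy, Subtype.ext (e'.trans e)⟩
  have hi : Injective g := inj_of_piece (sub_top (LW X)) (ob Y).ind
    (τ := fun j : ZMod X.P × ℚ => (i.φ j.1, j.2))
    (fun a b h => Prod.ext (i.φ.injective (congrArg Prod.fst h)) (congrArg (fun p => p.2) h))
    (fun j y hy => (hmap j.1 j.2).le ⟨y, hy, rfl⟩) fun j y hy h0 =>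
      Subtype.ext (umap_inj (f := i.g) (S := fun m => X.gr m j.1 j.2)
        ((ev_uf (i.bij j.1 j.2)).mono fun m hm x hx h =>
          hm.injOn hx (zero_mem _) (h.trans (map_zero _).symm)) hy (congrArg Subtype.val h0))
  have hs : Surjective g := by
    rw [← LinearMap.range_eq_top, eq_top_iff, ← sub_top (LW Y)]
    refine iSup_le fun j => ?_
    obtain ⟨t, x⟩ := j
    obtain ⟨s, rfl⟩ := i.φ.surjective t
    exact (hmap s x).ge.trans LinearMap.map_le_range
  refine ⟨⟨i.φ, LinearEquiv.ofBijective g ⟨hi, hs⟩, hmap, fun y => ?_⟩⟩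
  obtain ⟨z, a, hz, e⟩ := el_surj y
  apply Subtype.ext
  show umap uf _ (umap uf _ y.1) = umap uf _ (umap uf _ y.1)
  rw [← e]
  exact um_eq.2 ((ev_uf (i.U a)).mono fun m h => h _ (hz m))

theorem cc_rfl {a : ℕ} (s : ZMod a) : cc rfl s = s := by
  simp [cc]

/-- LIM -/
theorem lim : LimStmt := ⟨{
  ob := ob
  hP := fun _ => rfl
  pure := fun X d h => by
    have := pure_of (ob X) d
      (fun s k => ⟨Lgr_one X (((h s _).1 ⟨k, rfl⟩).mono fun _ h => h.1),
        LU_inj X (((h s _).1 ⟨k, rfl⟩).mono fun _ h => h.2)⟩)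
      fun s x hx => Lgr_bot X ((h s x).2 hx)
    exact ⟨this.1, fun s => (this.2 s).trans (congrArg d (cc_rfl (a := X.P) s).symm)⟩
  iso := fun _ _ => iso
  el := el
  el_ne := fun X y a h e => by
    have h1 := el_val (ev_uf (h.mono fun _ h => h.1))
    rw [e] at h1
    obtain ⟨m, h2, h3⟩ := ((um_eq_zero.1 h1.symm).and (ev_uf h)).exists
    exact h3.2 h2
  el_congr := fun X y y' h => by
    have e : um K uf y = um K uf y' := um_eq.2 (ev_uf h)
    unfold el
    rw [e]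
  el_zero := fun X => Subtype.ext
    ((el_val (a := 0) (Eventually.of_forall fun _ => zero_mem _)).trans (map_zero _))
  el_add := fun X y y' a h => by
    apply Subtype.ext
    have h1 := el_val (ev_uf (h.mono fun _ h => h.1))
    have h2 := el_val (ev_uf (h.mono fun _ h => h.2))
    have h3 := el_val (y := y + y') (ev_uf (h.mono fun _ h => add_mem h.1 h.2))
    show (el X (y + y')).1 = (el X y).1 + (el X y').1
    rw [h1, h2, h3, map_add]
  fam := fam
  hs := fun _ _ => cc_rfl _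
  ht := fun _ _ => cc_rfl _
  hdg := fun _ => rfl
  F_el := fun {A B} f κ y a h => by
    apply Subtype.ext
    have h1 := el_val (ev_uf h)
    have h2 : um K uf (fun m => f.F m κ (y m)) ∈ ⨆ i, LW B i := by
      have := ((fam f).F κ (el A y)).2
      rwa [show ((fam f).F κ (el A y)).1 = umap uf _ (el A y).1 from rfl, h1, umap_um] at this
    show umap uf _ (el A y).1 = (el B _).1
    rw [h1, umap_um, el, dif_pos h2]
  surj := fun X z => by
    obtain ⟨y, a, hy, e⟩ := el_surj z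
    exact ⟨y, a, hy, Subtype.ext ((el_val (Eventually.of_forall hy)).trans e)⟩
  tow := fun {A B} f κ ⟨N, hN⟩ ⟨k, hk⟩ =>
    tow_of (ob A) (ob B) ((fam f).F κ) (f.s κ) (f.t κ) (f.dg κ) ((fam f).map κ)
      (k := k + Lj B (f.t κ) - Lj A (f.s κ)) (N0 := N)
      (by
        show B.w _ + 2 * (Lj B _ : ℚ) = A.w _ + 2 * (Lj A _ : ℚ) + _ + _
        rw [hk]
        push_cast
        ring)
      fun x hx _ hy h0 => Subtype.ext (umap_inj (ev_uf (hN x hx)) hy (congrArg Subtype.val h0))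
  zer := fun {A B} f κ ⟨N, hN⟩ => ⟨N, fun x hx =>
    Subtype.ext (umap_eq_zero (ev_uf (hN x hx)) ((ob A).e_mem (f.s κ) x))⟩
  ex := fam_ex }⟩

end Crest.Agent.X212.Win22
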