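import Crest.Agent.X212.Win22.Hg
import Crest.Agent.X212.Win22.Lim

/-!
The ultralimit at chain level: families of graded complexes and maps whose identities hold only
in bounded degree, eventually in the level `m`, have honest limits.
-/

set_option autoImplicit false
set_option linter.unusedSectionVars false

open Module Function Filter

noncomputable section

namespace Crest.Agent.X212.Win22

open Bor5 (K)
open Cx

instance : CharP K 2 := ZMod.charP 2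

/-- Graded spaces at all levels. -/
structure WG (L : Type) : Type 1 where
  H : ℕ → Type
  [acg : ∀ m, AddCommGroup (H m)]
  [mdl : ∀ m, Module K (H m)]
  [fin : Finite L]
  g : ∀ m, Gd K (H m) (L × ℚ)
  w : L → ℚ
  lat : ∀ m l, (g m).W l ≠ ⊥ → ∃ k : ℕ, l.2 = w l.1 + k
  dim : ∀ l, ∃ B : ℕ, ∀ᶠ m in atTop,
    FiniteDimensional K ((g m).W l) ∧ finrank K ((g m).W l) ≤ B

attribute [instance] WG.acg WG.mdl

namespace WG

variable {L L' L'' : Type} (X : WG L)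

/-- degrees at most `a` -/
def le (m : ℕ) (a : ℚ) : Submodule K (X.H m) := (X.g m).up {l | l.2 ≤ a}

/-- the property holds in every bounded range of degrees, eventually in the level -/
def Loc (p : ∀ m, X.H m → Prop) : Prop := ∀ a, ∀ᶠ m in atTop, ∀ y ∈ X.le m a, p m y

theorem Loc.of_forall {p : ∀ m, X.H m → Prop} (h : ∀ m y, p m y) : X.Loc p :=
  fun _ => Eventually.of_forall fun m y _ => h m y

theorem W_le (m : ℕ) {l : L × ℚ} {a : ℚ} (h : l.2 ≤ a) : (X.g m).W l ≤ X.le m a :=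
  (X.g m).W_le_up (S := {l | l.2 ≤ a}) h

theorem le_mono (m : ℕ) {a b : ℚ} (h : a ≤ b) : X.le m a ≤ X.le m b :=
  fun _ hy => (X.g m).mono' (fun _ hl => hl.trans h) hy

/-- the labels that can occur below `a` -/
def box (a : ℚ) : Set (L × ℚ) := {i | i.2 ≤ a ∧ ∃ k : ℕ, i.2 = X.w i.1 + k}

theorem box_finite (a : ℚ) : (X.box a).Finite := by
  have := X.fin
  refine (Set.finite_iUnion fun s : L =>
    (Set.finite_le_nat ⌈a - X.w s⌉₊).image fun k : ℕ => (s, X.w s + k)).subset ?_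
  rintro ⟨s, x⟩ ⟨h1, k, hk⟩
  obtain rfl : x = X.w s + k := hk
  refine Set.mem_iUnion.2 ⟨s, k, ?_, rfl⟩
  have h2 : (k : ℚ) ≤ a - X.w s := by
    have : X.w s + k ≤ a := h1
    linarith
  exact_mod_cast h2.trans (Nat.le_ceil _)

/-- limit pieces -/
def LW (l : L × ℚ) : Submodule K (UP K uf X.H) := ul uf fun m => (X.g m).W l

/-- limit space -/
abbrev LH : Type := ↥(⨆ l, X.LW l)

/-- limit grading -/
def lg : Gd K X.LH (L × ℚ) :=
  ⟨sub X.LW, sub_indep _ (ul_indep (W := fun m => (X.g m).W)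
    (Eventually.of_forall fun m => (X.g m).ind)), sub_top _⟩

theorem ul_up_le {S : Set (L × ℚ)} {a : ℚ} (h : ∀ l ∈ S, l.2 ≤ a) :
    (ul uf fun m => (X.g m).up S) ≤ ⨆ l ∈ S, X.LW l := by
  refine le_trans (ul_mono (T := fun m => ⨆ l ∈ S ∩ X.box a, (X.g m).W l)
    (Eventually.of_forall fun m => (X.g m).up_le fun l hl => ?_))
    ((ul_iSup_le (fun m => (X.g m).W) ((X.box_finite a).inter_of_right S)).trans
      (biSup_mono fun _ hl => hl.1))
  by_cases h0 : (X.g m).W l = ⊥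
  · rw [h0]
    exact bot_le
  · exact (X.g m).W_le_up (S := S ∩ X.box a) ⟨hl, h l hl, X.lat m l h0⟩

theorem ul_le_le (a : ℚ) : (ul uf fun m => X.le m a) ≤ ⨆ l, X.LW l :=
  (X.ul_up_le (S := {l | l.2 ≤ a}) fun _ h => h).trans (iSup₂_le fun l _ => le_iSup X.LW l)

variable {X}

/-- the sequence `x` represents `y` -/
def Rp (x : ∀ m, X.H m) (y : X.LH) : Prop := um K uf x = y.1

theorem Rp.ext {x x' : ∀ m, X.H m} {y y' : X.LH} (h : Rp x y) (h' : Rp x' y')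
    (e : ∀ᶠ m in uf, x m = x' m) : y = y' :=
  Subtype.ext (h.symm.trans ((um_eq.2 e).trans h'))

theorem Rp.ev {x x' : ∀ m, X.H m} {y : X.LH} (h : Rp x y) (h' : Rp x' y) :
    ∀ᶠ m in uf, x m = x' m := um_eq.1 (h.trans h'.symm)

theorem Rp.congr {x x' : ∀ m, X.H m} {y : X.LH} (h : Rp x y) (e : ∀ᶠ m in uf, x' m = x m) :
    Rp x' y := (um_eq.2 e).trans h

theorem Rp.zero : Rp (X := X) (fun _ => 0) 0 := map_zero (um K uf)

theorem Rp.add {x x' : ∀ m, X.H m} {y y' : X.LH} (h : Rp x y) (h' : Rp x' y') :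
    Rp (fun m => x m + x' m) (y + y') :=
  (map_add (um K uf) x x').trans (congrArg₂ (· + ·) h h')

theorem Rp.sum {α : Type*} (s : Finset α) {x : α → ∀ m, X.H m} {y : α → X.LH}
    (h : ∀ i ∈ s, Rp (x i) (y i)) : Rp (fun m => ∑ i ∈ s, x i m) (∑ i ∈ s, y i) := by
  have e : (fun m => ∑ i ∈ s, x i m) = ∑ i ∈ s, x i := funext fun m => (Finset.sum_apply m s x).symm
  rw [Rp, e, map_sum]
  exact (Finset.sum_congr rfl h).trans (map_sum (⨆ l, X.LW l).subtype y s).symm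

theorem Rp.mem_up {x : ∀ m, X.H m} {y : X.LH} (h : Rp x y) {S : Set (L × ℚ)} :
    y ∈ X.lg.up S ↔ ∀ᶠ m in uf, x m ∈ (X.g m).up S := by
  have key : ∀ T : Set (L × ℚ), ∀ z ∈ X.lg.up T, z.1 ∈ ul uf fun m => (X.g m).up T :=
    fun T z hz => iSup_ul_le (fun m => (X.g m).W) T ((mem_iSup_sub X.LW).1 hz)
  refine ⟨fun hy => um_mem.1 (h ▸ key S y hy), fun hx => ?_⟩
  obtain ⟨a, ha, b, hb, rfl⟩ := X.lg.split S y
  have h1 : b.1 ∈ ul uf fun m => (X.g m).up S := by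
    have := sub_mem (h ▸ um_mem.2 hx) (key S a ha)
    simpa using this
  have h2 : b = 0 := Subtype.ext (Submodule.disjoint_def.1 (ul_disjoint (Eventually.of_forall
    fun m => (X.g m).disj disjoint_compl_right)) _ h1 (key Sᶜ b hb))
  rwa [h2, add_zero]

theorem Rp.mem_W {x : ∀ m, X.H m} {y : X.LH} (h : Rp x y) {l : L × ℚ} :
    y ∈ X.lg.W l ↔ ∀ᶠ m in uf, x m ∈ (X.g m).W l := by
  simpa only [Gd.up_single] using h.mem_up (S := {l})

theorem exists_rp_up {S : Set (L × ℚ)} {y : X.LH} (hy : y ∈ X.lg.up S) :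
    ∃ x, Rp x y ∧ ∀ m, x m ∈ (X.g m).up S := by
  obtain ⟨x, hx, e⟩ := exists_rep (iSup_ul_le (fun m => (X.g m).W) S ((mem_iSup_sub X.LW).1 hy))
  exact ⟨x, e, hx⟩

theorem exists_rp_W {l : L × ℚ} {y : X.LH} (hy : y ∈ X.lg.W l) :
    ∃ x, Rp x y ∧ ∀ m, x m ∈ (X.g m).W l := by
  obtain ⟨x, hx, e⟩ := exists_rep (S := fun m => (X.g m).W l) hy
  exact ⟨x, e, hx⟩

theorem exists_rp (y : X.LH) : ∃ x a, Rp x y ∧ ∀ m, x m ∈ X.le m a := by
  obtain ⟨a, ha⟩ := X.lg.exists_le Prod.snd y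
  obtain ⟨x, h, hx⟩ := exists_rp_up ha
  exact ⟨x, a, h, hx⟩

theorem Rp.le {x : ∀ m, X.H m} {y : X.LH} (h : Rp x y) : ∃ a, ∀ᶠ m in uf, x m ∈ X.le m a := by
  obtain ⟨a, ha⟩ := X.lg.exists_le Prod.snd y
  exact ⟨a, h.mem_up.1 ha⟩

theorem Rp.loc {x : ∀ m, X.H m} {y : X.LH} (h : Rp x y) {p : ∀ m, X.H m → Prop}
    (hp : X.Loc p) : ∀ᶠ m in uf, p m (x m) := by
  obtain ⟨a, ha⟩ := h.le
  exact ((ev_uf (hp a)).and ha).mono fun m hm => hm.1 _ hm.2

theorem exists_of_le {x : ∀ m, X.H m} {a : ℚ} (h : ∀ᶠ m in uf, x m ∈ X.le m a) :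
    ∃ y, Rp x y := ⟨⟨_, X.ul_le_le a (um_mem.2 h)⟩, rfl⟩

variable (X)

theorem lg_bot {l : L × ℚ} (h : ∀ᶠ m in atTop, (X.g m).W l = ⊥) : X.lg.W l = ⊥ := by
  refine eq_bot_iff.2 fun y hy => ?_
  obtain ⟨x, r, hx⟩ := exists_rp_W hy
  exact r.ext Rp.zero ((ev_uf h).mono fun m hm => by simpa [hm] using hx m)

theorem lg_lat (l : L × ℚ) (h : X.lg.W l ≠ ⊥) : ∃ k : ℕ, l.2 = X.w l.1 + k :=
  by_contra fun h' => h (X.lg_bot (Eventually.of_forall fun m =>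
    by_contra fun e => h' (X.lat m l e)))

theorem lg_fd (l : L × ℚ) : FiniteDimensional K (X.lg.W l) := by
  obtain ⟨B, hB⟩ := X.dim l
  have : FiniteDimensional K (X.LW l) := (ul_fd (hyperfilter ℕ) (ev_uf hB)).1
  exact (subEquiv X.LW l).symm.finiteDimensional

theorem lg_le_fd (a : ℚ) : FiniteDimensional K (X.lg.up {l | l.2 ≤ a}) :=
  X.lg.fd_up (X.box_finite a) (fun l hl h => by_contra fun e => h ⟨hl, X.lg_lat l e⟩) X.lg_fd

theorem lg_one {l : L × ℚ} (h : ∀ᶠ m in atTop, finrank K ((X.g m).W l) = 1) :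
    finrank K (X.lg.W l) = 1 := by
  have h1 := ul_fd (hyperfilter ℕ) (S := fun m => (X.g m).W l) (C := 1)
    (ev_uf (h.mono fun m hm => ⟨finite_of_finrank_eq_succ hm, hm.le⟩))
  have h2 : X.LW l ≠ ⊥ := ul_ne_bot (ev_uf (h.mono fun m hm e => by
    rw [e, finrank_bot] at hm
    exact zero_ne_one hm))
  have : FiniteDimensional K (X.LW l) := h1.1
  have h3 : finrank K (X.LW l) ≠ 0 := fun e => h2 (Submodule.finrank_eq_zero.1 e)
  have h4 : finrank K (X.LW l) ≤ 1 := h1.2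
  have h5 : finrank K (X.lg.W l) = finrank K (X.LW l) := (subEquiv X.LW l).finrank_eq
  omega

end WG

open WG

/-- Maps at all levels that keep the degree bounded. -/
structure WM {L L' : Type} (X : WG L) (Y : WG L') where
  φ : ∀ m, X.H m →ₗ[K] Y.H m
  bd : ∀ a, ∃ b, ∀ᶠ m in atTop, ∀ y ∈ X.le m a, φ m y ∈ Y.le m b

namespace WM

variable {L L' L'' : Type} {X : WG L} {Y : WG L'} {Z : WG L''} (f : WM X Y)

/-- the limit map -/
def lim : X.LH →ₗ[K] Y.LH :=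
  (umap uf f.φ).restrict fun y hy => by
    obtain ⟨x, a, r, hx⟩ := exists_rp ⟨y, hy⟩
    obtain ⟨b, hb⟩ := f.bd a
    exact Y.ul_le_le b (umap_mem (S := fun m => X.le m a) (ev_uf hb)
      (r ▸ um_mem.2 (Eventually.of_forall hx) :))

theorem rp {x : ∀ m, X.H m} {y : X.LH} (h : Rp x y) : Rp (fun m => f.φ m (x m)) (f.lim y) :=
  (umap_um f.φ x).symm.trans (congrArg (umap uf f.φ) h)

/-- identity -/
def id (X : WG L) : WM X X :=
  ⟨fun _ => LinearMap.id, fun a => ⟨a, Eventually.of_forall fun _ _ h => h⟩⟩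

/-- zero -/
def zero (X : WG L) (Y : WG L') : WM X Y :=
  ⟨fun _ => 0, fun a => ⟨a, Eventually.of_forall fun _ _ _ => zero_mem _⟩⟩

/-- composition -/
def comp (g : WM Y Z) (f : WM X Y) : WM X Z :=
  ⟨fun m => g.φ m ∘ₗ f.φ m, fun a => by
    obtain ⟨b, hb⟩ := f.bd a
    obtain ⟨c, hc⟩ := g.bd b
    exact ⟨c, (hb.and hc).mono fun m h y hy => h.2 _ (h.1 y hy)⟩⟩

/-- sum -/
def add (f g : WM X Y) : WM X Y :=
  ⟨fun m => f.φ m + g.φ m, fun a => by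
    obtain ⟨b, hb⟩ := f.bd a
    obtain ⟨c, hc⟩ := g.bd a
    exact ⟨max b c, (hb.and hc).mono fun m h y hy => add_mem
      (Y.le_mono m (le_max_left _ _) (h.1 y hy)) (Y.le_mono m (le_max_right _ _) (h.2 y hy))⟩⟩

/-- a family that raises the degree by at most `c` -/
def ofUp (φ : ∀ m, X.H m →ₗ[K] Y.H m) (c : ℚ)
    (h : ∀ a, ∀ᶠ m in atTop, ∀ y ∈ X.le m a, φ m y ∈ Y.le m (a + c)) : WM X Y :=
  ⟨φ, fun a => ⟨a + c, h a⟩⟩

theorem lim_up {l : L × ℚ} {T : Set (L' × ℚ)}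
    (h : ∀ᶠ m in atTop, ∀ x ∈ (X.g m).W l, f.φ m x ∈ (Y.g m).up T) :
    ∀ y ∈ X.lg.W l, f.lim y ∈ Y.lg.up T := fun y hy => by
  obtain ⟨x, r, hx⟩ := exists_rp_W hy
  exact (f.rp r).mem_up.2 ((ev_uf h).mono fun m hm => hm _ (hx m))

theorem lim_W {l : L × ℚ} {k : L' × ℚ}
    (h : ∀ᶠ m in atTop, ∀ x ∈ (X.g m).W l, f.φ m x ∈ (Y.g m).W k) :
    ∀ y ∈ X.lg.W l, f.lim y ∈ Y.lg.W k := fun y hy => by
  obtain ⟨x, r, hx⟩ := exists_rp_W hy
  exact (f.rp r).mem_W.2 ((ev_uf h).mono fun m hm => hm _ (hx m))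

theorem lim_zero_up {S : Set (L × ℚ)}
    (h : ∀ᶠ m in atTop, ∀ x ∈ (X.g m).up S, f.φ m x = 0) :
    ∀ y ∈ X.lg.up S, f.lim y = 0 := fun y hy => by
  obtain ⟨x, r, hx⟩ := exists_rp_up hy
  exact (f.rp r).ext Rp.zero ((ev_uf h).mono fun m hm => hm _ (hx m))

theorem lim_zero_W {l : L × ℚ} (h : ∀ᶠ m in atTop, ∀ x ∈ (X.g m).W l, f.φ m x = 0) :
    ∀ y ∈ X.lg.W l, f.lim y = 0 := fun y hy => by
  obtain ⟨x, r, hx⟩ := exists_rp_W hy
  exact (f.rp r).ext Rp.zero ((ev_uf h).mono fun m hm => hm _ (hx m))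

theorem lim_inj_W {l : L × ℚ}
    (h : ∀ᶠ m in atTop, ∀ x ∈ (X.g m).W l, f.φ m x = 0 → x = 0) :
    ∀ y ∈ X.lg.W l, f.lim y = 0 → y = 0 := fun y hy h0 => by
  obtain ⟨x, r, hx⟩ := exists_rp_W hy
  have r' := f.rp r
  rw [h0] at r'
  exact r.ext Rp.zero (((ev_uf h).and (r'.ev Rp.zero)).mono fun m hm => hm.1 _ (hx m) hm.2)

end WM

/-- Complexes at all levels. -/
structure WC (L : Type) : Type 1 extends WG L where
  d : ∀ m, H m →ₗ[K] H m
  hom : ∀ m l, ∀ y ∈ (g m).W l, d m y ∈ (g m).W (sh l)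
  dd : toWG.Loc fun m y => d m (d m y) = 0

namespace WC

variable {L L' L'' : Type} (X : WC L)

/-- the differential as a bounded family -/
def dM : WM X.toWG X.toWG :=
  ⟨X.d, fun a => ⟨a, Eventually.of_forall fun m _ hy => (X.g m).map_up'
    (fun l hl x hx => X.W_le m (l := sh l) (by
      show l.2 - 1 ≤ a
      linarith) (X.hom m l x hx)) hy⟩⟩

/-- the limit complex -/
def cx : HCx K X.LH (L × ℚ) sh where
  d := X.dM.lim
  dd y := by
    obtain ⟨x, -, r, -⟩ := exists_rp y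
    exact (X.dM.rp (X.dM.rp r)).ext Rp.zero (r.loc X.dd)
  g := X.lg
  inj := sh_inj
  hom l := X.dM.lim_W (Eventually.of_forall fun m => X.hom m l)

/-- the homology -/
abbrev Hm : Type := X.cx.H

/-- its graded pieces -/
def gr (s : L) (x : ℚ) : Submodule K X.Hm := X.cx.hg.W (s, x)

theorem gr_ind : iSupIndep fun i : L × ℚ => X.gr i.1 i.2 := X.cx.hg.ind

theorem gr_top : ⨆ i : L × ℚ, X.gr i.1 i.2 = ⊤ := X.cx.hg.top

theorem gr_fd (s : L) (x : ℚ) : FiniteDimensional K (X.gr s x) :=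
  have : FiniteDimensional K (X.cx.g.W (s, x)) := X.lg_fd (s, x)
  X.cx.fd_img

theorem gr_lat (s : L) (x : ℚ) (h : X.gr s x ≠ ⊥) : ∃ k : ℕ, x = X.w s + k :=
  X.lg_lat (s, x) fun e => h (HCx.hg_bot e)

theorem gr_bot {s : L} {x : ℚ} (h : ∀ᶠ m in atTop, (X.g m).W (s, x) = ⊥) : X.gr s x = ⊥ :=
  HCx.hg_bot (X.lg_bot h)

theorem above {s : L} {x : ℚ} (h : ∀ᶠ m in atTop, (X.g m).W (s, x + 1) = ⊥) :
    ∀ k, sh k = (s, x) → X.cx.g.W k = ⊥ := fun k hk => by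
  obtain rfl : k = (s, x + 1) := sh_inj (hk.trans (by simp [sh]))
  exact X.lg_bot h

theorem gr_one {s : L} {x : ℚ} (h : ∀ᶠ m in atTop, finrank K ((X.g m).W (s, x)) = 1)
    (h1 : ∀ᶠ m in atTop, (X.g m).W (s, x + 1) = ⊥)
    (h2 : ∀ᶠ m in atTop, (X.g m).W (s, x - 1) = ⊥) : finrank K (X.gr s x) = 1 :=
  (HCx.finrank_hg (X.above h1) (X.lg_bot h2)).trans (X.lg_one h)

end WC

/-- Chain maps at all levels. -/
structure WCh {L L' : Type} (X : WC L) (Y : WC L') extends WM X.toWG Y.toWG where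
  ch : X.Loc fun m y => Y.d m (φ m y) = φ m (X.d m y)

namespace WCh

variable {L L' L'' : Type} {X : WC L} {Y : WC L'} {Z : WC L''} (f : WCh X Y)

theorem isCh : IsCh X.cx.toCx Y.cx.toCx f.lim := fun y => by
  obtain ⟨x, -, r, -⟩ := exists_rp y
  exact (Y.dM.rp (f.rp r)).ext (f.rp (X.dM.rp r)) (r.loc f.ch)

/-- the map on homology -/
def hm : X.Hm →ₗ[K] Y.Hm := X.cx.map Y.cx.toCx f.lim f.isCh

/-- identity -/
def id (X : WC L) : WCh X X := ⟨WM.id _, Loc.of_forall _ fun _ _ => rfl⟩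

/-- composition -/
def comp (g : WCh Y Z) (f : WCh X Y) : WCh X Z :=
  ⟨g.toWM.comp f.toWM, fun a => by
    obtain ⟨b, hb⟩ := f.bd a
    exact (hb.and ((g.ch b).and (f.ch a))).mono fun m h y hy =>
      (h.2.1 _ (h.1 y hy)).trans (congrArg (g.φ m) (h.2.2 y hy))⟩

/-- sum -/
def add (f g : WCh X Y) : WCh X Y :=
  ⟨f.toWM.add g.toWM, fun a => ((f.ch a).and (g.ch a)).mono fun m h y hy =>
    (map_add _ _ _).trans (congrArg₂ (· + ·) (h.1 y hy) (h.2 y hy))⟩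

theorem hm_congr {φ : X.LH →ₗ[K] Y.LH} (h : IsCh X.cx.toCx Y.cx.toCx φ) (e : f.lim = φ) :
    f.hm = X.cx.map Y.cx.toCx φ h := by
  subst e
  rfl

theorem hm_id (X : WC L) : (id X).hm = LinearMap.id :=
  ((id X).hm_congr (IsCh.id _) (LinearMap.ext fun y => by
    obtain ⟨x, -, r, -⟩ := exists_rp y
    exact ((id X).rp r).ext r (Eventually.of_forall fun _ => rfl))).trans (map_id _ _)

theorem hm_comp (g : WCh Y Z) (f : WCh X Y) : (g.comp f).hm = g.hm ∘ₗ f.hm :=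
  ((g.comp f).hm_congr (g.isCh.comp f.isCh) (LinearMap.ext fun y => by
    obtain ⟨x, -, r, -⟩ := exists_rp y
    exact ((g.comp f).rp r).ext (g.rp (f.rp r)) (Eventually.of_forall fun _ => rfl))).trans
      (map_comp _ _ _)

theorem hm_add (f g : WCh X Y) : (f.add g).hm = f.hm + g.hm :=
  ((f.add g).hm_congr (f.isCh.add g.isCh) (LinearMap.ext fun y => by
    obtain ⟨x, -, r, -⟩ := exists_rp y
    exact ((f.add g).rp r).ext ((f.rp r).add (g.rp r)) (Eventually.of_forall fun _ => rfl))).trans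
      (map_add' _ _ _)

/-- homotopy invariance -/
theorem hm_eq (f g : WCh X Y) (k : WM X.toWG Y.toWG)
    (h : X.Loc fun m y => Y.d m (k.φ m y) + k.φ m (X.d m y) = f.φ m y + g.φ m y) :
    f.hm = g.hm :=
  map_eq_of_htpy2 f.isCh g.isCh k.lim fun y => by
    obtain ⟨x, -, r, -⟩ := exists_rp y
    exact ((Y.dM.rp (k.rp r)).add (k.rp (X.dM.rp r))).ext ((f.rp r).add (g.rp r)) (r.loc h)

theorem hm_eq' (f g : WCh X Y) (h : X.Loc fun m y => f.φ m y = g.φ m y) : f.hm = g.hm :=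
  f.hm_congr g.isCh (LinearMap.ext fun y => by
    obtain ⟨x, -, r, -⟩ := exists_rp y
    exact (f.rp r).ext (g.rp r) (r.loc h))

theorem hm_eq_zero (k : WM X.toWG Y.toWG)
    (h : X.Loc fun m y => Y.d m (k.φ m y) + k.φ m (X.d m y) = f.φ m y) : f.hm = 0 := by
  refine hext fun y hy => (Y.cx.cls_eq_zero (f.isCh.cyc hy)).2 ⟨k.lim y, ?_⟩
  obtain ⟨x, -, r, -⟩ := exists_rp y
  have e := ((Y.dM.rp (k.rp r)).add (k.rp (X.dM.rp r))).ext (f.rp r) (r.loc h)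
  have hy' : X.dM.lim y = 0 := hy
  rwa [hy', map_zero, add_zero] at e

theorem hm_mem {s : L} {x : ℚ} {t : L'} {x' : ℚ}
    (h : ∀ᶠ m in atTop, ∀ y ∈ (X.g m).W (s, x), f.φ m y ∈ (Y.g m).W (t, x')) :
    ∀ c ∈ X.gr s x, f.hm c ∈ Y.gr t x' := fun _ hc => HCx.map_hg_W f.isCh (f.lim_W h) hc

theorem hm_zero {s : L} {x : ℚ} (h : ∀ᶠ m in atTop, ∀ y ∈ (X.g m).W (s, x), f.φ m y = 0) :
    ∀ c ∈ X.gr s x, f.hm c = 0 := fun _ hc => HCx.map_hg_zero f.isCh (f.lim_zero_W h) hc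

theorem hm_inj {s : L} {x : ℚ} {t : L'} {x' : ℚ}
    (h : ∀ᶠ m in atTop, ∀ y ∈ (X.g m).W (s, x), f.φ m y ∈ (Y.g m).W (t, x'))
    (hi : ∀ᶠ m in atTop, ∀ y ∈ (X.g m).W (s, x), f.φ m y = 0 → y = 0)
    (h1 : ∀ᶠ m in atTop, (Y.g m).W (t, x' + 1) = ⊥) :
    ∀ c ∈ X.gr s x, f.hm c = 0 → c = 0 := fun _ hc h0 =>
  HCx.map_hg_inj f.isCh (f.lim_W h) (f.lim_inj_W hi) (Y.above h1) hc h0

/-- totals -/
theorem hm_finsum {α : Type*} (F : α → WCh X Y) (t : WCh X Y)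
    (h : ∀ a, ∃ S : Finset α, ∀ᶠ m in atTop, ∀ y ∈ X.le m a,
      (∀ κ ∉ S, (F κ).φ m y = 0) ∧ t.φ m y = ∑ κ ∈ S, (F κ).φ m y) (c : X.Hm) :
    (support fun κ => (F κ).hm c).Finite ∧ t.hm c = ∑ᶠ κ, (F κ).hm c := by
  obtain ⟨y, hy, rfl⟩ := X.cx.exists_cls c
  obtain ⟨x, a, r, hx⟩ := exists_rp y
  obtain ⟨S, hS⟩ := h a
  have h0 : support (fun κ => (F κ).hm (X.cx.cls y hy)) ⊆ S := fun κ hκ => by_contra fun hn =>
    hκ ((Y.cx.cls_congr _ (map_zero _) (((F κ).rp r).ext Rp.zero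
      ((ev_uf hS).mono fun m hm => (hm _ (hx m)).1 κ hn))).trans (Y.cx.cls_zero _))
  have e : t.lim y = ∑ κ ∈ S, (F κ).lim y :=
    (t.rp r).ext (Rp.sum S fun κ _ => (F κ).rp r) ((ev_uf hS).mono fun m hm => (hm _ (hx m)).2)
  refine ⟨S.finite_toSet.subset h0, ?_⟩
  rw [finsum_eq_sum_of_support_subset _ h0]
  exact (Y.cx.cls_congr _ (e ▸ t.isCh.cyc hy) e).trans
    (Y.cx.cls_sum S (fun κ => (F κ).lim y) (fun κ => (F κ).isCh.cyc hy) _)

end WCh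

/-- The three sides and the three null-homotopies of a triangle. -/
structure WTri {L L' L'' : Type} (A : WC L) (B : WC L') (C : WC L'') where
  f : WCh A B
  g : WCh B C
  h : WCh C A
  hA : WM A.toWG C.toWG
  hB : WM B.toWG A.toWG
  hC : WM C.toWG B.toWG
  eA : A.Loc fun m x => C.d m (hA.φ m x) + hA.φ m (A.d m x) = g.φ m (f.φ m x)
  eB : B.Loc fun m x => A.d m (hB.φ m x) + hB.φ m (B.d m x) = h.φ m (g.φ m x)
  eC : C.Loc fun m x => B.d m (hC.φ m x) + hC.φ m (C.d m x) = f.φ m (h.φ m x)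

namespace WTri

variable {L L' L'' : Type} {A : WC L} {B : WC L'} {C : WC L''} (T : WTri A B C)

/-- rotation -/
def rot : WTri B C A := ⟨T.g, T.h, T.f, T.hB, T.hC, T.hA, T.eB, T.eC, T.eA⟩

/-- the limit triangle -/
def tri : Tri A.cx.toCx B.cx.toCx C.cx.toCx where
  f := T.f.lim
  g := T.g.lim
  h := T.h.lim
  hA := T.hA.lim
  hB := T.hB.lim
  hC := T.hC.lim
  cf := T.f.isCh
  cg := T.g.isCh
  ch := T.h.isCh
  eA y := by
    obtain ⟨x, -, r, -⟩ := exists_rp y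
    exact ((C.dM.rp (T.hA.rp r)).add (T.hA.rp (A.dM.rp r))).ext (T.g.rp (T.f.rp r)) (r.loc T.eA)
  eB y := by
    obtain ⟨x, -, r, -⟩ := exists_rp y
    exact ((A.dM.rp (T.hB.rp r)).add (T.hB.rp (B.dM.rp r))).ext (T.h.rp (T.g.rp r)) (r.loc T.eB)
  eC y := by
    obtain ⟨x, -, r, -⟩ := exists_rp y
    exact ((B.dM.rp (T.hC.rp r)).add (T.hC.rp (C.dM.rp r))).ext (T.f.rp (T.h.rp r)) (r.loc T.eC)

/-- The pentagon identity at the vertex `A`. -/
structure Pent where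
  G : WM A.toWG A.toWG
  u : WCh A A
  ν : WM A.toWG A.toWG
  eq : A.Loc fun m x => A.d m (G.φ m x) + G.φ m (A.d m x) =
    T.h.φ m (T.hA.φ m x) + T.hB.φ m (T.f.φ m x) + (u.φ m x + ν.φ m x)
  du : ∀ l, ∀ᶠ m in atTop, ∀ x ∈ (A.g m).W l, u.φ m x ∈ (A.g m).up {k | k.2 = l.2}
  dν : ∀ l, ∀ᶠ m in atTop, ∀ x ∈ (A.g m).W l, ν.φ m x ∈ (A.g m).up {k | k.2 < l.2}
  inj : Injective u.hm

variable {T} in
theorem Pent.bij (p : T.Pent) : Bijective T.tri.Ψ :=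
  HCx.Uni.bij (A := A.cx) (deg := Prod.snd)
    { G := p.G.lim
      u := p.u.lim
      ν := p.ν.lim
      cu := p.u.isCh
      eq := fun y => by
        obtain ⟨x, -, r, -⟩ := exists_rp y
        exact ((A.dM.rp (p.G.rp r)).add (p.G.rp (A.dM.rp r))).ext
          (((T.h.rp (T.hA.rp r)).add (T.hB.rp (T.f.rp r))).add ((p.u.rp r).add (p.ν.rp r)))
          (r.loc p.eq)
      du := fun l => p.u.lim_up (p.du l)
      dν := fun l => p.ν.lim_up (p.dν l)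
      inj := p.inj } A.lg_le_fd T.tri.cψ

/-- Exactness at `B` from the pentagons at `A` and at `B`. -/
theorem exact (p : T.Pent) (q : T.rot.Pent) : Exact T.f.hm T.g.hm :=
  LinearMap.exact_iff.2 (T.tri.exact p.bij.2 q.bij.1)

end WTri

end Crest.Agent.X212.Win22
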