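import Crest.Agent.X212.Win22.Hom

/-!
Complexes with a finite basis of labelled generators: pieces, projections, the grading of the
homology, and invertibility of "degree-zero injective + degree-lowering".
-/

set_option linter.unusedSectionVars false

namespace Crest.Agent.X212.Win22

open Cx

section Pieces

variable {R : Type*} [Ring R] {ι κ : Type*}

/-- Vectors supported in a set of generators. -/
def pc (R : Type*) [Ring R] (S : Set ι) : Submodule R (ι → R) where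
  carrier := {x | ∀ i, i ∉ S → x i = 0}
  add_mem' := fun {x y} hx hy i hi => by simp [hx i hi, hy i hi]
  zero_mem' := fun _ _ => rfl
  smul_mem' := fun r x hx i hi => by simp [hx i hi]

theorem mem_pc {S : Set ι} {x : ι → R} : x ∈ pc R S ↔ ∀ i, i ∉ S → x i = 0 := Iff.rfl

theorem pc_mono {S T : Set ι} (h : S ⊆ T) : pc R S ≤ pc R T :=
  fun _ hx i hi => hx i fun hs => hi (h hs)

theorem pc_univ : pc R (Set.univ : Set ι) = ⊤ :=
  eq_top_iff.2 fun _ _ _ hi => (hi trivial).elim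

theorem pc_empty : pc R (∅ : Set ι) = ⊥ :=
  eq_bot_iff.2 fun _ hx => funext fun i => hx i id

open Classical in
/-- Projection to a set of generators. -/
noncomputable def pr (R : Type*) [Ring R] (S : Set ι) : (ι → R) →ₗ[R] (ι → R) where
  toFun x i := if i ∈ S then x i else 0
  map_add' x y := funext fun i => by by_cases h : i ∈ S <;> simp [h]
  map_smul' r x := funext fun i => by by_cases h : i ∈ S <;> simp [h]

theorem pr_of_mem {S : Set ι} (x : ι → R) {i : ι} (h : i ∈ S) : pr R S x i = x i := by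
  simp [pr, h]

theorem pr_of_not {S : Set ι} (x : ι → R) {i : ι} (h : i ∉ S) : pr R S x i = 0 := by
  simp [pr, h]

theorem pr_mem (S : Set ι) (x : ι → R) : pr R S x ∈ pc R S := fun _ hi => pr_of_not x hi

theorem pr_add_compl (S : Set ι) (x : ι → R) : pr R S x + pr R Sᶜ x = x := by
  refine funext fun i => ?_
  by_cases h : i ∈ S
  · rw [Pi.add_apply, pr_of_mem x h, pr_of_not x (S := Sᶜ) (fun h' => h' h), add_zero]
  · rw [Pi.add_apply, pr_of_not x h, pr_of_mem x (S := Sᶜ) h, zero_add]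

theorem pr_eq_self {S : Set ι} {x : ι → R} (hx : x ∈ pc R S) : pr R S x = x := by
  refine funext fun i => ?_
  by_cases h : i ∈ S
  · exact pr_of_mem x h
  · rw [pr_of_not x h, hx i h]

theorem pr_eq_zero {S T : Set ι} (hd : Disjoint S T) {x : ι → R} (hx : x ∈ pc R T) :
    pr R S x = 0 := by
  refine funext fun i => ?_
  by_cases h : i ∈ S
  · rw [pr_of_mem x h]
    exact hx i (Set.disjoint_left.1 hd h)
  · exact pr_of_not x h

theorem pr_mem_inter (S : Set ι) {T : Set ι} {x : ι → R} (hx : x ∈ pc R T) :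
    pr R S x ∈ pc R (S ∩ T) := fun i hi => by
  by_cases h : i ∈ S
  · rw [pr_of_mem x h]
    exact hx i fun ht => hi ⟨h, ht⟩
  · exact pr_of_not x h

variable [Fintype ι] [DecidableEq ι]

/-- The matrix entries of `φ` vanish outside the relation `r`. -/
def Sp (φ : (ι → R) →ₗ[R] (κ → R)) (r : ι → κ → Prop) : Prop :=
  ∀ i k, φ (Pi.single i 1) k ≠ 0 → r i k

theorem apply_eq_sum (φ : (ι → R) →ₗ[R] (κ → R)) (x : ι → R) (k : κ) :
    φ x k = ∑ i, x i * φ (Pi.single i 1) k := by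
  conv_lhs => rw [pi_eq_sum_univ' x]
  simp [map_sum, Finset.sum_apply]

theorem Sp.mem {φ : (ι → R) →ₗ[R] (κ → R)} {r : ι → κ → Prop} (h : Sp φ r) {S : Set ι}
    {T : Set κ} (hST : ∀ i ∈ S, ∀ k, r i k → k ∈ T) {x : ι → R} (hx : x ∈ pc R S) :
    φ x ∈ pc R T := fun k hk => by
  rw [apply_eq_sum]
  refine Finset.sum_eq_zero fun i _ => ?_
  by_cases hi : i ∈ S
  · by_cases h0 : φ (Pi.single i 1) k = 0
    · rw [h0, mul_zero]
    · exact (hk (hST i hi k (h i k h0))).elim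
  · rw [hx i hi, zero_mul]

theorem Sp.mono {φ : (ι → R) →ₗ[R] (κ → R)} {r r' : ι → κ → Prop} (h : Sp φ r)
    (hr : ∀ i k, r i k → r' i k) : Sp φ r' := fun i k h0 => hr i k (h i k h0)

theorem Sp.add {φ ψ : (ι → R) →ₗ[R] (κ → R)} {r : ι → κ → Prop} (h : Sp φ r) (h' : Sp ψ r) :
    Sp (φ + ψ) r := fun i k h0 => by
  by_contra hr
  apply h0
  have a : φ (Pi.single i 1) k = 0 := by_contra fun a => hr (h i k a)
  have b : ψ (Pi.single i 1) k = 0 := by_contra fun a => hr (h' i k a)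
  simp [a, b]

theorem Sp.sum {α : Type*} (s : Finset α) {φ : α → (ι → R) →ₗ[R] (κ → R)}
    {r : ι → κ → Prop} (h : ∀ a ∈ s, Sp (φ a) r) : Sp (∑ a ∈ s, φ a) r := fun i k h0 => by
  by_contra hr
  apply h0
  rw [LinearMap.sum_apply, Finset.sum_apply]
  exact Finset.sum_eq_zero fun a ha => by_contra fun b => hr (h a ha i k b)

/-- A map whose entries respect a pair of sets commutes with the projections. -/
theorem Sp.pr_comm {φ : (ι → R) →ₗ[R] (κ → R)} {r : ι → κ → Prop} (h : Sp φ r) {S : Set ι}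
    {T : Set κ} (hST : ∀ i k, r i k → (i ∈ S ↔ k ∈ T)) (x : ι → R) :
    φ (pr R S x) = pr R T (φ x) := by
  have a : φ (pr R S x) ∈ pc R T := h.mem (fun i hi k hr => (hST i k hr).1 hi) (pr_mem S x)
  have b : φ (pr R Sᶜ x) ∈ pc R Tᶜ :=
    h.mem (S := Sᶜ) (T := Tᶜ) (fun i hi k hr hk => hi ((hST i k hr).2 hk)) (pr_mem Sᶜ x)
  conv_rhs => rw [← pr_add_compl S x, map_add, map_add, pr_eq_self a,
    pr_eq_zero disjoint_compl_right b, add_zero]

end Pieces

/-- A complex with a finite basis of generators labelled in `Λ`; the differential moves the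
label by the injective map `σ`. -/
structure GCx (R : Type*) [Ring R] (ι : Type*) [Fintype ι] [DecidableEq ι] (Λ : Type*)
    (σ : Λ → Λ) extends Cx R (ι → R) where
  lab : ι → Λ
  inj : Function.Injective σ
  hom : Sp d fun i k => lab k = σ (lab i)

namespace GCx

variable {R : Type*} [Ring R] {ι κ : Type*} [Fintype ι] [DecidableEq ι] [Fintype κ]
  [DecidableEq κ] {Λ Λ' : Type*} {σ : Λ → Λ} {σ' : Λ' → Λ'}

/-- Chains with labels in `S`. -/
def ch (A : GCx R ι Λ σ) (S : Set Λ) : Submodule R (ι → R) := pc R (A.lab ⁻¹' S)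

/-- Classes with labels in `S`. -/
def Hs (A : GCx R ι Λ σ) (S : Set Λ) : Submodule R A.H := A.img (A.ch S)

theorem Hs_mono (A : GCx R ι Λ σ) {S T : Set Λ} (h : S ⊆ T) : A.Hs S ≤ A.Hs T :=
  A.img_mono (pc_mono (Set.preimage_mono h))

theorem Hs_univ (A : GCx R ι Λ σ) : A.Hs Set.univ = ⊤ := by
  rw [Hs, ch, Set.preimage_univ, pc_univ, img_top]

theorem Hs_eq_bot (A : GCx R ι Λ σ) {S : Set Λ} (h : ∀ i, A.lab i ∉ S) : A.Hs S = ⊥ := by
  rw [Hs, ch, Set.eq_empty_of_forall_notMem (s := A.lab ⁻¹' S) h, pc_empty, img_bot]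

theorem d_pr (A : GCx R ι Λ σ) (T : Set Λ) (x : ι → R) :
    A.d (pr R (A.lab ⁻¹' (σ ⁻¹' T)) x) = pr R (A.lab ⁻¹' T) (A.d x) :=
  A.hom.pr_comm (fun i k h => by simp only [Set.mem_preimage, h]) x

theorem cyc_pr (A : GCx R ι Λ σ) (S : Set Λ) {x : ι → R} (hx : A.d x = 0) :
    A.d (pr R (A.lab ⁻¹' S) x) = 0 := by
  have := A.d_pr (σ '' S) x
  rwa [Set.preimage_image_eq S A.inj, hx, map_zero] at this

/-- Strictness: a boundary with labels in `T` bounds a chain with labels in `σ ⁻¹' T`. -/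
theorem strict (A : GCx R ι Λ σ) {T : Set Λ} {z y : ι → R} (hz : z ∈ A.ch T)
    (hy : A.d y = z) : ∃ y' ∈ A.ch (σ ⁻¹' T), A.d y' = z :=
  ⟨_, pr_mem _ y, by rw [d_pr, hy, pr_eq_self hz]⟩

/-- The projection on homology to the labels in `S`. -/
noncomputable def prH (A : GCx R ι Λ σ) (S : Set Λ) : A.H →ₗ[R] A.H :=
  A.B.mapQ A.B ((pr R (A.lab ⁻¹' S)).restrict (p := A.Z) (q := A.Z)
    fun _ hx => A.cyc_pr S hx) (by
    rintro ⟨x, hx⟩ ⟨y, hy⟩
    refine ⟨pr R (A.lab ⁻¹' (σ ⁻¹' S)) y, ?_⟩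
    have hy' : A.d y = x := hy
    rw [d_pr, hy']
    rfl)

theorem prH_cls (A : GCx R ι Λ σ) (S : Set Λ) {x : ι → R} (hx : A.d x = 0) :
    A.prH S (A.cls x hx) = A.cls (pr R (A.lab ⁻¹' S) x) (A.cyc_pr S hx) := rfl

theorem prH_mem (A : GCx R ι Λ σ) (S : Set Λ) (c : A.H) : A.prH S c ∈ A.Hs S := by
  obtain ⟨x, hx, rfl⟩ := A.exists_cls c
  exact cls_mem_img _ (pr_mem _ x)

theorem prH_mem_inter (A : GCx R ι Λ σ) (S : Set Λ) {T : Set Λ} {c : A.H} (hc : c ∈ A.Hs T) :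
    A.prH S c ∈ A.Hs (S ∩ T) := by
  obtain ⟨x, hx, hT, rfl⟩ := mem_img.1 hc
  exact cls_mem_img _ (pr_mem_inter _ hT)

theorem prH_eq_self (A : GCx R ι Λ σ) {S : Set Λ} {c : A.H} (hc : c ∈ A.Hs S) :
    A.prH S c = c := by
  obtain ⟨x, hx, hS, rfl⟩ := mem_img.1 hc
  exact A.cls_congr _ _ (pr_eq_self hS)

theorem prH_eq_zero (A : GCx R ι Λ σ) {S T : Set Λ} (hd : Disjoint S T) {c : A.H}
    (hc : c ∈ A.Hs T) : A.prH S c = 0 := by
  obtain ⟨x, hx, hT, rfl⟩ := mem_img.1 hc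
  exact (A.cls_congr _ (map_zero _) (pr_eq_zero (hd.preimage _) hT)).trans (A.cls_zero _)

theorem prH_add_compl (A : GCx R ι Λ σ) (S : Set Λ) (c : A.H) :
    A.prH S c + A.prH Sᶜ c = c := by
  obtain ⟨x, hx, rfl⟩ := A.exists_cls c
  rw [prH_cls, prH_cls, ← A.cls_add _ _ (by rw [map_add, A.cyc_pr S hx, A.cyc_pr Sᶜ hx, add_zero])]
  exact A.cls_congr _ _ (pr_add_compl _ x)

theorem mem_Hs_iff (A : GCx R ι Λ σ) {S : Set Λ} {c : A.H} :
    c ∈ A.Hs S ↔ A.prH Sᶜ c = 0 := by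
  refine ⟨fun h => A.prH_eq_zero disjoint_compl_left h, fun h => ?_⟩
  rw [← A.prH_add_compl S c, h, add_zero]
  exact A.prH_mem S c

theorem Hs_inter (A : GCx R ι Λ σ) (S T : Set Λ) : A.Hs (S ∩ T) = A.Hs S ⊓ A.Hs T := by
  refine le_antisymm (le_inf (A.Hs_mono Set.inter_subset_left)
    (A.Hs_mono Set.inter_subset_right)) fun c hc => ?_
  rw [← A.prH_eq_self hc.1]
  exact A.prH_mem_inter S hc.2

theorem Hs_union (A : GCx R ι Λ σ) (S T : Set Λ) : A.Hs (S ∪ T) = A.Hs S ⊔ A.Hs T := by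
  refine le_antisymm (fun c hc => ?_) (sup_le (A.Hs_mono Set.subset_union_left)
    (A.Hs_mono Set.subset_union_right))
  rw [← A.prH_add_compl S c]
  refine Submodule.add_mem_sup (A.prH_mem S c) (A.Hs_mono ?_ (A.prH_mem_inter Sᶜ hc))
  rintro a ⟨h1, h2 | h2⟩
  · exact (h1 h2).elim
  · exact h2

theorem Hs_eq_iSup (A : GCx R ι Λ σ) (S : Set Λ) : A.Hs S = ⨆ l ∈ S, A.Hs {l} := by
  classical
  refine le_antisymm ?_ (iSup₂_le fun l hl => A.Hs_mono (Set.singleton_subset_iff.2 hl))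
  have key : ∀ s : Finset Λ, (↑s : Set Λ) ⊆ S → A.Hs ↑s ≤ ⨆ l ∈ S, A.Hs {l} := by
    intro s
    induction s using Finset.induction_on with
    | empty => intro _; rw [A.Hs_eq_bot (by simp)]; exact bot_le
    | insert a s _ ih =>
      intro h
      rw [Finset.coe_insert] at h ⊢
      rw [Set.insert_eq, Hs_union]
      exact sup_le (le_iSup₂_of_le (f := fun l (_ : l ∈ S) => A.Hs {l}) a
        (h (Set.mem_insert _ _)) le_rfl) (ih ((Set.subset_insert _ _).trans h))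
  refine le_trans ?_ (key ((Finset.univ.image A.lab).filter (· ∈ S)) fun l hl => by
    simpa using (Finset.mem_filter.1 hl).2)
  refine A.img_mono (pc_mono fun i hi => ?_)
  simpa using hi

theorem iSup_Hs (A : GCx R ι Λ σ) : ⨆ l, A.Hs {l} = ⊤ := by
  rw [← A.Hs_univ, A.Hs_eq_iSup Set.univ]
  simp

theorem iSupIndep_Hs (A : GCx R ι Λ σ) : iSupIndep fun l => A.Hs {l} := by
  intro l
  refine Disjoint.mono_right (c := A.Hs {l}ᶜ) (iSup₂_le fun j hj => A.Hs_mono ?_) ?_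
  · exact Set.singleton_subset_iff.2 hj
  · rw [disjoint_iff, ← Hs_inter, Set.inter_compl_self]
    exact A.Hs_eq_bot fun _ => id

theorem map_mem_Hs {A : GCx R ι Λ σ} {B : GCx R κ Λ' σ'} {f : (ι → R) →ₗ[R] (κ → R)}
    (hf : IsCh A.toCx B.toCx f) {r : Λ → Λ' → Prop} (h : Sp f fun i k => r (A.lab i) (B.lab k))
    {S : Set Λ} {T : Set Λ'} (hST : ∀ a ∈ S, ∀ b, r a b → b ∈ T) {c : A.H} (hc : c ∈ A.Hs S) :
    A.map B.toCx f hf c ∈ B.Hs T :=
  map_mem_img hf (fun _ hx => h.mem (fun _ hi _ hr => hST _ hi _ hr) hx) hc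

theorem map_prH {A : GCx R ι Λ σ} {B : GCx R κ Λ' σ'} {f : (ι → R) →ₗ[R] (κ → R)}
    (hf : IsCh A.toCx B.toCx f) {r : Λ → Λ' → Prop} (h : Sp f fun i k => r (A.lab i) (B.lab k))
    {S : Set Λ} {T : Set Λ'} (hST : ∀ a b, r a b → (a ∈ S ↔ b ∈ T)) (c : A.H) :
    A.map B.toCx f hf (A.prH S c) = B.prH T (A.map B.toCx f hf c) := by
  obtain ⟨x, hx, rfl⟩ := A.exists_cls c
  exact B.cls_congr (hf.cyc (A.cyc_pr S hx)) (B.cyc_pr T (hf.cyc hx))
    (h.pr_comm (fun i k hr => hST _ _ hr) x)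

/-- Every non-zero class has a top degree. -/
theorem exists_top (A : GCx R ι Λ σ) (deg : Λ → ℚ) {c : A.H} (hc : c ≠ 0) :
    ∃ N, c ∈ A.Hs {l | deg l ≤ N} ∧ c ∉ A.Hs {l | deg l < N} := by
  classical
  let s := (Finset.univ.image fun i => deg (A.lab i)).filter fun N => c ∈ A.Hs {l | deg l ≤ N}
  have key : ∀ M : Set Λ, c ∈ A.Hs M → ∃ N ∈ s, ∃ l ∈ M, deg l = N := by
    intro M hM
    let t := Finset.univ.filter fun i => A.lab i ∈ M
    have ht : t.Nonempty := by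
      by_contra h
      rw [A.Hs_eq_bot (S := M) fun i hi => h ⟨i, by simpa [t] using hi⟩] at hM
      exact hc hM
    obtain ⟨i, hi, hmax⟩ := t.exists_max_image (fun i => deg (A.lab i)) ht
    refine ⟨deg (A.lab i), Finset.mem_filter.2 ⟨by simp, ?_⟩, A.lab i, by simpa [t] using hi, rfl⟩
    exact A.img_mono (pc_mono fun j hj => hmax j (by simpa [t] using hj)) hM
  obtain ⟨N0, hN0, -⟩ := key Set.univ (by rw [Hs_univ]; trivial)
  obtain ⟨N, hN, hmin⟩ := s.exists_min_image id ⟨N0, hN0⟩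
  refine ⟨N, (Finset.mem_filter.1 hN).2, fun h => ?_⟩
  obtain ⟨N', hN', l, hl, rfl⟩ := key _ h
  exact absurd (hmin _ hN') (not_le.2 hl)

/-- `u + ν` is injective when `u` is injective of degree zero and `ν` lowers the degree. -/
theorem inj_add (A : GCx R ι Λ σ) (deg : Λ → ℚ) {u ν : A.H →ₗ[R] A.H}
    (hu : Function.Injective u)
    (hup : ∀ N c, u (A.prH {l | deg l < N}ᶜ c) = A.prH {l | deg l < N}ᶜ (u c))
    (hν : ∀ N, ∀ c ∈ A.Hs {l | deg l ≤ N}, ν c ∈ A.Hs {l | deg l < N}) :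
    Function.Injective (u + ν) := by
  refine (injective_iff_map_eq_zero _).2 fun c h0 => by_contra fun hc => ?_
  obtain ⟨N, h1, h2⟩ := A.exists_top deg hc
  apply h2
  have e : u c = -ν c := eq_neg_of_add_eq_zero_left h0
  rw [mem_Hs_iff]
  apply hu
  rw [hup, map_zero, ← mem_Hs_iff, e]
  exact neg_mem (hν N c h1)

end GCx

/-- An injective endomorphism of a finite-dimensional space is onto on each invariant
subspace. -/
theorem surj_on {F V : Type*} [Field F] [AddCommGroup V] [Module F V] [FiniteDimensional F V]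
    {e : V →ₗ[F] V} (he : Function.Injective e) {S : Submodule F V} (hS : ∀ x ∈ S, e x ∈ S)
    {x : V} (hx : x ∈ S) : ∃ y ∈ S, e y = x := by
  have hi : Function.Injective (e.restrict hS) := fun a b h =>
    Subtype.ext (he (congrArg Subtype.val h))
  obtain ⟨y, hy⟩ := LinearMap.surjective_of_injective hi ⟨x, hx⟩
  exact ⟨y, y.2, congrArg Subtype.val hy⟩

end Crest.Agent.X212.Win22
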