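import Crest.Agent.X212.Win22.Main

/-!
Graded spaces and graded complexes without a finiteness assumption on the total space; the
triangle lemma for locally finite gradings.
-/

set_option linter.unusedSectionVars false

open Module Function

namespace Crest.Agent.X212.Win22

open Cx

/-- A grading. -/
structure Gd (F : Type*) [Field F] (V : Type*) [AddCommGroup V] [Module F V] (Λ : Type*) where
  W : Λ → Submodule F V
  ind : iSupIndep W
  top : ⨆ l, W l = ⊤

namespace Gd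

variable {F : Type*} [Field F] {V V' : Type*} [AddCommGroup V] [Module F V] [AddCommGroup V']
  [Module F V'] {Λ Λ' : Type*} (g : Gd F V Λ)

/-- The sum of the pieces with labels in `S`. -/
def up (S : Set Λ) : Submodule F V := ⨆ l ∈ S, g.W l

theorem W_le_up {S : Set Λ} {l : Λ} (h : l ∈ S) : g.W l ≤ g.up S :=
  le_iSup₂_of_le (f := fun l (_ : l ∈ S) => g.W l) l h le_rfl

theorem up_le {S : Set Λ} {P : Submodule F V} (h : ∀ l ∈ S, g.W l ≤ P) : g.up S ≤ P :=
  iSup₂_le h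

theorem up_mono {S T : Set Λ} (h : S ⊆ T) : g.up S ≤ g.up T :=
  g.up_le fun _ hl => g.W_le_up (h hl)

theorem up_univ : g.up Set.univ = ⊤ := by
  rw [up, ← g.top]
  simp

theorem up_single (l : Λ) : g.up {l} = g.W l := by simp [up]

theorem up_union (S T : Set Λ) : g.up (S ∪ T) = g.up S ⊔ g.up T := iSup_union

theorem up_eq_bot {S : Set Λ} (h : ∀ l ∈ S, g.W l = ⊥) : g.up S = ⊥ :=
  eq_bot_iff.2 (g.up_le fun l hl => (h l hl).le)

theorem disj {S T : Set Λ} (h : Disjoint S T) : Disjoint (g.up S) (g.up T) :=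
  g.ind.disjoint_biSup_biSup h

theorem eq_zero {S : Set Λ} {x : V} (h1 : x ∈ g.up S) (h2 : x ∈ g.up Sᶜ) : x = 0 :=
  Submodule.disjoint_def.1 (g.disj disjoint_compl_right) x h1 h2

theorem split (S : Set Λ) (x : V) : ∃ a ∈ g.up S, ∃ b ∈ g.up Sᶜ, a + b = x := by
  rw [← Submodule.mem_sup, ← up_union, Set.union_compl_self, up_univ]
  trivial

theorem map_up {g' : Gd F V' Λ'} {φ : V →ₗ[F] V'} {S : Set Λ} {T : Set Λ'}
    (h : ∀ l ∈ S, ∀ x ∈ g.W l, φ x ∈ g'.up T) {x : V} (hx : x ∈ g.up S) : φ x ∈ g'.up T :=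
  g.up_le (P := (g'.up T).comap φ) h hx

theorem mono' {p q : Λ → Prop} (h : ∀ l, p l → q l) {x : V} (hx : x ∈ g.up {l | p l}) :
    x ∈ g.up {l | q l} := g.up_mono (S := {l | p l}) (T := {l | q l}) h hx

theorem map_up' {g' : Gd F V' Λ'} {φ : V →ₗ[F] V'} {p : Λ → Prop} {T : Set Λ'}
    (h : ∀ l, p l → ∀ x ∈ g.W l, φ x ∈ g'.up T) {x : V} (hx : x ∈ g.up {l | p l}) :
    φ x ∈ g'.up T := g.map_up (S := {l | p l}) h hx

theorem exists_sum {S : Set Λ} {x : V} (hx : x ∈ g.up S) :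
    ∃ (s : Finset S) (v : S → V), (∀ l : S, v l ∈ g.W l) ∧ ∑ l ∈ s, v l = x := by
  rw [up, iSup_subtype'] at hx
  obtain ⟨v, hv, e⟩ := (Submodule.mem_iSup_iff_exists_finsupp _ x).1 hx
  exact ⟨v.support, v, hv, e⟩

theorem exists_fin (deg : Λ → ℚ) (x : V) : ∃ D : Finset ℚ, x ∈ g.up {l | deg l ∈ D} := by
  classical
  obtain ⟨s, v, hv, rfl⟩ := g.exists_sum (S := Set.univ) (x := x) (by rw [up_univ]; trivial)
  refine ⟨s.image fun l => deg l.1, sum_mem fun l hl => g.W_le_up ?_ (hv l)⟩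
  exact Finset.mem_image_of_mem (fun l : (Set.univ : Set Λ) => deg l.1) hl

theorem exists_le (deg : Λ → ℚ) (x : V) : ∃ a, x ∈ g.up {l | deg l ≤ a} := by
  obtain ⟨D, hD⟩ := g.exists_fin deg x
  obtain ⟨a, ha⟩ := D.bddAbove
  exact ⟨a, g.mono' (fun _ hl => ha hl) hD⟩

/-- `u + ν` is injective if `u` is injective of degree zero and `ν` lowers the degree. -/
theorem inj_add (deg : Λ → ℚ) {u ν : V →ₗ[F] V} (hu : Injective u)
    (du : ∀ l, ∀ x ∈ g.W l, u x ∈ g.up {k | deg k = deg l})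
    (dν : ∀ l, ∀ x ∈ g.W l, ν x ∈ g.up {k | deg k < deg l}) : Injective (u + ν) := by
  classical
  refine (injective_iff_map_eq_zero _).2 fun x h0 => ?_
  obtain ⟨D, hD⟩ := g.exists_fin deg x
  induction D using Finset.induction_on_max with
  | empty => rwa [g.up_eq_bot (by simp)] at hD
  | insert N D hN ih =>
    have e : {l | deg l ∈ insert N D} = {l | deg l = N} ∪ {l | deg l ∈ D} := by
      ext l
      simp
    rw [e, up_union] at hD
    obtain ⟨a, ha, b, hb, rfl⟩ := Submodule.mem_sup.1 hD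
    have h1 : u a ∈ g.up {l | deg l = N} :=
      g.map_up' (p := fun l => deg l = N)
        (fun l hl x hx => g.mono' (fun k hk => hk.trans hl) (du l x hx)) ha
    have h2 : u b ∈ g.up {l | ¬deg l = N} :=
      g.map_up' (p := fun l => deg l ∈ D) (fun l hl x hx => g.mono'
        (fun k hk => hk.trans_ne (hN _ hl).ne) (du l x hx)) hb
    have h3 : ν a ∈ g.up {l | ¬deg l = N} :=
      g.map_up' (p := fun l => deg l = N) (fun l hl x hx => g.mono'
        (fun k hk => (lt_of_lt_of_eq hk hl).ne) (dν l x hx)) ha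
    have h4 : ν b ∈ g.up {l | ¬deg l = N} :=
      g.map_up' (p := fun l => deg l ∈ D) (fun l hl x hx => g.mono'
        (fun k hk => (lt_trans hk (hN _ hl)).ne) (dν l x hx)) hb
    have h5 : u a = -(u b + ν a + ν b) := by
      rw [LinearMap.add_apply, map_add, map_add] at h0
      linear_combination (norm := abel) h0
    have h6 : a = 0 := hu (by
      rw [map_zero]
      exact g.eq_zero h1 (h5 ▸ neg_mem (add_mem (add_mem h2 h3) h4)))
    subst h6
    exact ih (by simpa using hb)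

/-- ... and bijective if the windows are finite-dimensional. -/
theorem bij_add (deg : Λ → ℚ) (fd : ∀ a, FiniteDimensional F (g.up {l | deg l ≤ a}))
    {u ν : V →ₗ[F] V} (hu : Injective u)
    (du : ∀ l, ∀ x ∈ g.W l, u x ∈ g.up {k | deg k = deg l})
    (dν : ∀ l, ∀ x ∈ g.W l, ν x ∈ g.up {k | deg k < deg l}) : Bijective (u + ν) := by
  have hi := g.inj_add deg hu du dν
  refine ⟨hi, fun x => ?_⟩
  obtain ⟨a, ha⟩ := g.exists_le deg x
  have hS : ∀ x ∈ g.up {l | deg l ≤ a}, (u + ν) x ∈ g.up {l | deg l ≤ a} := fun x hx =>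
    g.map_up' (φ := u + ν) (fun l hl y hy => add_mem
      (g.mono' (fun k hk => hk.le.trans hl) (du l y hy))
      (g.mono' (fun k hk => hk.le.trans hl) (dν l y hy))) hx
  have := fd a
  obtain ⟨y, hy⟩ := LinearMap.surjective_of_injective (f := (u + ν).restrict hS)
    (fun a b h => Subtype.ext (hi (congrArg Subtype.val h))) ⟨x, ha⟩
  exact ⟨y, congrArg Subtype.val hy⟩

theorem fd_up {S T : Set Λ} (hT : T.Finite) (h : ∀ l ∈ S, l ∉ T → g.W l = ⊥)
    (fd : ∀ l, FiniteDimensional F (g.W l)) : FiniteDimensional F (g.up S) := by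
  have h1 : g.up S ≤ g.up T := g.up_le fun l hl => by
    by_cases hl' : l ∈ T
    · exact g.W_le_up hl'
    · rw [h l hl hl']
      exact bot_le
  have : Finite T := hT
  have : FiniteDimensional F (g.up T) := by
    rw [up, iSup_subtype']
    infer_instance
  exact Submodule.finiteDimensional_of_le h1

end Gd

/-- A graded complex. -/
structure HCx (F : Type*) [Field F] (V : Type*) [AddCommGroup V] [Module F V] (Λ : Type*)
    (σ : Λ → Λ) extends Cx F V where
  g : Gd F V Λ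
  inj : Injective σ
  hom : ∀ l, ∀ x ∈ g.W l, d x ∈ g.W (σ l)

namespace HCx

variable {F : Type*} [Field F] {V V' : Type*} [AddCommGroup V] [Module F V] [AddCommGroup V']
  [Module F V'] {Λ Λ' : Type*} {σ : Λ → Λ} {σ' : Λ' → Λ'} (A : HCx F V Λ σ)

theorem d_up {T : Set Λ} {x : V} (hx : x ∈ A.g.up (σ ⁻¹' T)) : A.d x ∈ A.g.up T :=
  A.g.map_up (S := σ ⁻¹' T) (fun l hl y hy => A.g.W_le_up (l := σ l) hl (A.hom l y hy)) hx

theorem strict {T : Set Λ} {z z' y : V} (hz : z ∈ A.g.up T) (hz' : z' ∈ A.g.up Tᶜ)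
    (hy : A.d y = z - z') : ∃ y' ∈ A.g.up (σ ⁻¹' T), A.d y' = z := by
  obtain ⟨a, ha, b, hb, rfl⟩ := A.g.split (σ ⁻¹' T) y
  refine ⟨a, ha, (sub_eq_zero.1 (A.g.eq_zero (sub_mem hz (A.d_up ha)) ?_)).symm⟩
  have e : z - A.d a = z' + A.d b := by
    rw [map_add] at hy
    linear_combination (norm := abel) -hy
  rw [e]
  exact add_mem hz' (A.d_up (T := Tᶜ) hb)

theorem img_disj (S : Set Λ) : Disjoint (A.img (A.g.up S)) (A.img (A.g.up Sᶜ)) := by
  rw [Submodule.disjoint_def]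
  intro c h1 h2
  obtain ⟨x, hx, hS, rfl⟩ := mem_img.1 h1
  obtain ⟨y, hy, hT, e⟩ := mem_img.1 h2
  obtain ⟨u, hu⟩ := (A.cls_eq_iff hx hy).1 e.symm
  obtain ⟨a, -, ha⟩ := A.strict hS hT hu
  exact (A.cls_eq_zero hx).2 ⟨a, ha⟩

theorem img_up (S : Set Λ) : A.img (A.g.up S) = ⨆ l ∈ S, A.img (A.g.W l) := by
  refine le_antisymm (fun c hc => ?_) (iSup₂_le fun l hl => A.img_mono (A.g.W_le_up hl))
  classical
  obtain ⟨x, hx, hS, rfl⟩ := mem_img.1 hc
  obtain ⟨s, v, hv, rfl⟩ := A.g.exists_sum hS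
  have h0 : ∀ l ∈ s, A.d (v l) = 0 :=
    (iSupIndep_iff_finsetSum_eq_zero_imp_eq_zero _).1
      (A.g.ind.comp (A.inj.comp Subtype.val_injective)) s (fun l => A.d (v l))
      (fun l _ => A.hom l _ (hv l)) (by rw [← map_sum, hx])
  have e : ∑ l ∈ s, v l = ∑ l ∈ s.attach, v l := (Finset.sum_attach s v).symm
  rw [A.cls_congr hx (e ▸ hx) e, A.cls_sum s.attach (fun l => v l) fun l => h0 l l.2]
  exact sum_mem fun l _ => le_iSup₂_of_le (f := fun l (_ : l ∈ S) => A.img (A.g.W l)) l.1.1 l.1.2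
    le_rfl (cls_mem_img _ (hv l))

/-- The grading of the homology. -/
def hg : Gd F A.H Λ where
  W l := A.img (A.g.W l)
  ind l := by
    have := A.img_disj {l}
    rw [A.g.up_single, A.img_up] at this
    exact this
  top := by
    rw [← A.img_top, ← A.g.up_univ, A.img_up]
    simp

theorem hg_up (S : Set Λ) : A.hg.up S = A.img (A.g.up S) := (A.img_up S).symm

theorem fd_img {S : Submodule F V} [FiniteDimensional F S] : FiniteDimensional F (A.img S) := by
  have : FiniteDimensional F (S.comap A.Z.subtype) :=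
    FiniteDimensional.of_injective (V₂ := S)
      ((A.Z.subtype.domRestrict _).codRestrict S fun x => x.2) fun a b h =>
        Subtype.ext (Subtype.ext (congrArg (fun z : S => (z : V)) h))
  exact Module.Finite.map _ _

variable {A} {B : HCx F V' Λ' σ'}

theorem map_hg {f : V →ₗ[F] V'} (hf : IsCh A.toCx B.toCx f) {l : Λ} {T : Set Λ'}
    (h : ∀ x ∈ A.g.W l, f x ∈ B.g.up T) {c : A.H} (hc : c ∈ A.hg.W l) :
    A.map B.toCx f hf c ∈ B.hg.up T := by
  rw [hg_up]
  exact map_mem_img hf h hc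

theorem map_hg_W {f : V →ₗ[F] V'} (hf : IsCh A.toCx B.toCx f) {l : Λ} {k : Λ'}
    (h : ∀ x ∈ A.g.W l, f x ∈ B.g.W k) {c : A.H} (hc : c ∈ A.hg.W l) :
    A.map B.toCx f hf c ∈ B.hg.W k := map_mem_img hf h hc

theorem map_hg_zero {f : V →ₗ[F] V'} (hf : IsCh A.toCx B.toCx f) {S : Submodule F V}
    (h : ∀ x ∈ S, f x = 0) {c : A.H} (hc : c ∈ A.img S) : A.map B.toCx f hf c = 0 := by
  have := map_mem_img hf (T := ⊥) h hc
  rwa [img_bot] at this

theorem hg_bot {l : Λ} (h : A.g.W l = ⊥) : A.hg.W l = ⊥ := by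
  show A.img _ = ⊥
  rw [h, img_bot]

/-- No boundaries in a piece with nothing above it. -/
theorem cls_ne {l : Λ} (h : ∀ k, σ k = l → A.g.W k = ⊥) {x : V} (hx : A.d x = 0)
    (hl : x ∈ A.g.W l) (h0 : A.cls x hx = 0) : x = 0 := by
  obtain ⟨y, hy⟩ := (A.cls_eq_zero hx).1 h0
  obtain ⟨y', h1, h2⟩ := A.strict (T := {l}) (z' := 0) (y := y) (by rwa [A.g.up_single])
    (zero_mem _) (by rw [hy, sub_zero])
  rw [A.g.up_eq_bot (S := σ ⁻¹' {l}) fun k hk => h k hk] at h1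
  rw [← h2, (Submodule.mem_bot F).1 h1, map_zero]

theorem map_hg_inj {f : V →ₗ[F] V'} (hf : IsCh A.toCx B.toCx f) {l : Λ} {k : Λ'}
    (h : ∀ x ∈ A.g.W l, f x ∈ B.g.W k) (hi : ∀ x ∈ A.g.W l, f x = 0 → x = 0)
    (hk : ∀ j, σ' j = k → B.g.W j = ⊥) {c : A.H} (hc : c ∈ A.hg.W l)
    (h0 : A.map B.toCx f hf c = 0) : c = 0 := by
  obtain ⟨x, hx, hl, rfl⟩ := mem_img.1 hc
  obtain rfl := hi x hl (cls_ne hk (hf.cyc hx) (h x hl) h0)
  exact A.cls_zero hx

/-- A piece with nothing above and below it survives to the homology. -/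
theorem finrank_hg {l : Λ} (h : ∀ k, σ k = l → A.g.W k = ⊥) (h' : A.g.W (σ l) = ⊥) :
    finrank F (A.hg.W l) = finrank F (A.g.W l) := by
  have cyc : ∀ x : A.g.W l, A.d x.1 = 0 := fun x => by
    have := A.hom l x.1 x.2
    rwa [h'] at this
  let φ : A.g.W l →ₗ[F] A.hg.W l :=
    (A.mkH ∘ₗ (A.g.W l).subtype.codRestrict A.Z cyc).codRestrict _ fun x =>
      cls_mem_img (cyc x) x.2
  refine (LinearEquiv.ofBijective φ ⟨(injective_iff_map_eq_zero φ).2 fun x hx => ?_,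
    fun c => ?_⟩).finrank_eq.symm
  · exact Subtype.ext (cls_ne h (cyc x) x.2 (congrArg Subtype.val hx))
  · obtain ⟨x, hx, hl, e⟩ := mem_img.1 c.2
    exact ⟨⟨x, hl⟩, Subtype.ext e⟩

/-- `ψ` is homotopic to `u + ν`, with `u` of degree zero and injective on homology and `ν`
lowering the degree. -/
structure Uni [CharP F 2] (A : HCx F V Λ σ) (deg : Λ → ℚ) (ψ : V →ₗ[F] V) where
  G : V →ₗ[F] V
  u : V →ₗ[F] V
  ν : V →ₗ[F] V
  cu : IsCh A.toCx A.toCx u
  eq : ∀ x, A.d (G x) + G (A.d x) = ψ x + (u x + ν x)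
  du : ∀ l, ∀ x ∈ A.g.W l, u x ∈ A.g.up {k | deg k = deg l}
  dν : ∀ l, ∀ x ∈ A.g.W l, ν x ∈ A.g.up {k | deg k < deg l}
  inj : Injective (A.map A.toCx u cu)

theorem Uni.bij [CharP F 2] {deg : Λ → ℚ} {ψ : V →ₗ[F] V} (U : Uni A deg ψ)
    (fd : ∀ a, FiniteDimensional F (A.g.up {l | deg l ≤ a})) (hψ : IsCh A.toCx A.toCx ψ) :
    Bijective (A.map A.toCx ψ hψ) := by
  have cν : IsCh A.toCx A.toCx U.ν := fun x => by
    have e1 := congrArg A.d (U.eq x)
    have e2 := U.eq (A.d x)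
    rw [map_add, map_add, map_add, A.dd, hψ, U.cu] at e1
    rw [A.dd, map_zero] at e2
    linear_combination (norm := abel) e2 - e1
  rw [map_eq_of_htpy2 hψ (U.cu.add cν) U.G U.eq, map_add' U.cu cν]
  refine A.hg.bij_add deg (fun a => ?_) U.inj (fun l c hc => map_hg U.cu (U.du l) hc)
    fun l c hc => map_hg cν (U.dν l) hc
  have := fd a
  rw [hg_up]
  exact A.fd_img

end HCx

end Crest.Agent.X212.Win22
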