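import Mathlib

/-!
Homology of a differential module, induced maps, homotopy invariance, and the triangle lemma
(exactness from chain data), plain and filtered.
-/

set_option linter.unusedSectionVars false

namespace Crest.Agent.X212.Win22

/-- A differential on a module. -/
structure Cx (R : Type*) [Ring R] (V : Type*) [AddCommGroup V] [Module R V] where
  d : V →ₗ[R] V
  dd : ∀ x, d (d x) = 0

namespace Cx

variable {R : Type*} [Ring R]
variable {V W X : Type*} [AddCommGroup V] [Module R V] [AddCommGroup W] [Module R W]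
  [AddCommGroup X] [Module R X]

/-- Cycles. -/
def Z (A : Cx R V) : Submodule R V := LinearMap.ker A.d

/-- Boundaries, inside the cycles. -/
def B (A : Cx R V) : Submodule R A.Z := (LinearMap.range A.d).comap A.Z.subtype

/-- Homology. -/
def H (A : Cx R V) : Type _ := A.Z ⧸ A.B

instance (A : Cx R V) : AddCommGroup A.H := inferInstanceAs (AddCommGroup (A.Z ⧸ A.B))
instance (A : Cx R V) : Module R A.H := inferInstanceAs (Module R (A.Z ⧸ A.B))

/-- The projection from cycles to homology. -/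
def mkH (A : Cx R V) : A.Z →ₗ[R] A.H := A.B.mkQ

/-- The class of a cycle. -/
def cls (A : Cx R V) (x : V) (hx : A.d x = 0) : A.H := A.mkH ⟨x, hx⟩

theorem mkH_surj (A : Cx R V) : Function.Surjective A.mkH := A.B.mkQ_surjective

theorem exists_cls (A : Cx R V) (c : A.H) : ∃ x hx, A.cls x hx = c := by
  obtain ⟨⟨x, hx⟩, rfl⟩ := A.mkH_surj c
  exact ⟨x, hx, rfl⟩

theorem cls_eq_zero (A : Cx R V) {x : V} (hx : A.d x = 0) :
    A.cls x hx = 0 ↔ ∃ y, A.d y = x := by
  exact Submodule.Quotient.mk_eq_zero A.B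

theorem cls_add (A : Cx R V) {x y : V} (hx : A.d x = 0) (hy : A.d y = 0)
    (h : A.d (x + y) = 0) : A.cls (x + y) h = A.cls x hx + A.cls y hy := by
  unfold cls
  rw [← map_add]
  rfl

theorem cls_sub (A : Cx R V) {x y : V} (hx : A.d x = 0) (hy : A.d y = 0)
    (h : A.d (x - y) = 0) : A.cls (x - y) h = A.cls x hx - A.cls y hy := by
  unfold cls
  rw [← map_sub]
  rfl

theorem cls_smul (A : Cx R V) (r : R) {x : V} (hx : A.d x = 0)
    (h : A.d (r • x) = 0) : A.cls (r • x) h = r • A.cls x hx := by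
  unfold cls
  rw [← map_smul]
  rfl

theorem cls_zero (A : Cx R V) (h : A.d 0 = 0) : A.cls 0 h = 0 :=
  (A.cls_eq_zero h).2 ⟨0, map_zero _⟩

theorem cls_eq_iff (A : Cx R V) {x y : V} (hx : A.d x = 0) (hy : A.d y = 0) :
    A.cls x hx = A.cls y hy ↔ ∃ u, A.d u = x - y := by
  have h : A.d (x - y) = 0 := by rw [map_sub, hx, hy, sub_zero]
  rw [← sub_eq_zero, ← A.cls_sub hx hy h, cls_eq_zero]

theorem cls_congr (A : Cx R V) {x y : V} (hx : A.d x = 0) (hy : A.d y = 0) (h : x = y) :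
    A.cls x hx = A.cls y hy := by
  subst h
  rfl

theorem cls_sum (A : Cx R V) {ι : Type*} (s : Finset ι) (x : ι → V) (hx : ∀ i, A.d (x i) = 0)
    (h : A.d (∑ i ∈ s, x i) = 0) : A.cls (∑ i ∈ s, x i) h = ∑ i ∈ s, A.cls (x i) (hx i) := by
  unfold cls
  rw [← map_sum]
  congr 1
  apply Subtype.ext
  simp

instance (A : Cx R V) [IsNoetherian R V] : Module.Finite R A.H :=
  Module.Finite.of_surjective A.mkH A.mkH_surj

/-- Chain maps. -/
def IsCh (A : Cx R V) (B : Cx R W) (f : V →ₗ[R] W) : Prop := ∀ x, B.d (f x) = f (A.d x)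

theorem IsCh.cyc {A : Cx R V} {B : Cx R W} {f : V →ₗ[R] W} (hf : IsCh A B f) {x : V}
    (hx : A.d x = 0) : B.d (f x) = 0 := by rw [hf, hx, map_zero]

theorem IsCh.id (A : Cx R V) : IsCh A A LinearMap.id := fun _ => rfl

theorem IsCh.zero (A : Cx R V) (B : Cx R W) : IsCh A B 0 := fun _ => by simp

theorem IsCh.comp {A : Cx R V} {B : Cx R W} {C : Cx R X} {f : V →ₗ[R] W} {g : W →ₗ[R] X}
    (hg : IsCh B C g) (hf : IsCh A B f) : IsCh A C (g ∘ₗ f) := fun x => by
  simp only [LinearMap.comp_apply]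
  rw [hg, hf]

theorem IsCh.add {A : Cx R V} {B : Cx R W} {f g : V →ₗ[R] W} (hf : IsCh A B f)
    (hg : IsCh A B g) : IsCh A B (f + g) := fun x => by
  simp only [LinearMap.add_apply, map_add]
  rw [hf, hg]

theorem IsCh.sum {A : Cx R V} {B : Cx R W} {ι : Type*} (s : Finset ι) {f : ι → V →ₗ[R] W}
    (hf : ∀ i ∈ s, IsCh A B (f i)) : IsCh A B (∑ i ∈ s, f i) := fun x => by
  simp only [LinearMap.sum_apply, map_sum]
  exact Finset.sum_congr rfl fun i hi => hf i hi x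

/-- The map induced on homology. -/
def map (A : Cx R V) (B : Cx R W) (f : V →ₗ[R] W) (hf : IsCh A B f) : A.H →ₗ[R] B.H :=
  A.B.mapQ B.B (f.restrict (p := A.Z) (q := B.Z) fun _ hx => hf.cyc hx) (by
    rintro ⟨x, hx⟩ ⟨y, hy⟩
    refine ⟨f y, ?_⟩
    have hy' : A.d y = x := hy
    rw [hf, hy']
    rfl)

@[simp] theorem map_cls {A : Cx R V} {B : Cx R W} {f : V →ₗ[R] W} (hf : IsCh A B f) {x : V}
    (hx : A.d x = 0) : A.map B f hf (A.cls x hx) = B.cls (f x) (hf.cyc hx) := rfl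

theorem hext {A : Cx R V} {M : Type*} [AddCommGroup M] [Module R M] {φ ψ : A.H →ₗ[R] M}
    (h : ∀ x hx, φ (A.cls x hx) = ψ (A.cls x hx)) : φ = ψ := by
  refine LinearMap.ext fun c => ?_
  obtain ⟨x, hx, rfl⟩ := A.exists_cls c
  exact h x hx

theorem map_id (A : Cx R V) (h : IsCh A A LinearMap.id) :
    A.map A LinearMap.id h = LinearMap.id := hext fun _ _ => rfl

theorem map_zero' (A : Cx R V) (B : Cx R W) (h : IsCh A B 0) : A.map B 0 h = 0 :=
  hext fun _ _ => B.cls_zero (map_zero _)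

theorem map_comp {A : Cx R V} {B : Cx R W} {C : Cx R X} {f : V →ₗ[R] W} {g : W →ₗ[R] X}
    (hg : IsCh B C g) (hf : IsCh A B f) (h : IsCh A C (g ∘ₗ f)) :
    A.map C (g ∘ₗ f) h = B.map C g hg ∘ₗ A.map B f hf := hext fun _ _ => rfl

theorem map_add' {A : Cx R V} {B : Cx R W} {f g : V →ₗ[R] W} (hf : IsCh A B f)
    (hg : IsCh A B g) (h : IsCh A B (f + g)) :
    A.map B (f + g) h = A.map B f hf + A.map B g hg :=
  hext fun _ hx => B.cls_add (hf.cyc hx) (hg.cyc hx) _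

theorem map_sum' {A : Cx R V} {B : Cx R W} {ι : Type*} (s : Finset ι) {f : ι → V →ₗ[R] W}
    (hf : ∀ i, IsCh A B (f i)) (h : IsCh A B (∑ i ∈ s, f i)) :
    A.map B (∑ i ∈ s, f i) h = ∑ i ∈ s, A.map B (f i) (hf i) := by
  refine hext fun x hx => ?_
  rw [LinearMap.sum_apply s]
  simp only [map_cls]
  rw [← B.cls_sum s (fun i => f i x) (fun i => (hf i).cyc hx)
    (by rw [← LinearMap.sum_apply]; exact h.cyc hx)]
  exact B.cls_congr _ _ (LinearMap.sum_apply _ _ _)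

/-- Maps that differ on every cycle by a boundary induce the same map. -/
theorem map_eq_of_bd {A : Cx R V} {B : Cx R W} {f g : V →ₗ[R] W} (hf : IsCh A B f)
    (hg : IsCh A B g) (h : ∀ x, A.d x = 0 → ∃ u, B.d u = f x - g x) :
    A.map B f hf = A.map B g hg :=
  hext fun x hx => (B.cls_eq_iff _ _).2 (h x hx)

/-- Homotopy invariance. -/
theorem map_eq_of_htpy {A : Cx R V} {B : Cx R W} {f g : V →ₗ[R] W} (hf : IsCh A B f)
    (hg : IsCh A B g) (K : V →ₗ[R] W) (h : ∀ x, B.d (K x) + K (A.d x) = f x - g x) :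
    A.map B f hf = A.map B g hg :=
  map_eq_of_bd hf hg fun x hx => ⟨K x, by rw [← h, hx, map_zero, add_zero]⟩

/-- The classes of the cycles that lie in a submodule. -/
def img (A : Cx R V) (S : Submodule R V) : Submodule R A.H :=
  (S.comap A.Z.subtype).map A.mkH

theorem mem_img {A : Cx R V} {S : Submodule R V} {c : A.H} :
    c ∈ A.img S ↔ ∃ x hx, x ∈ S ∧ A.cls x hx = c := by
  constructor
  · rintro ⟨⟨x, hx⟩, hS, rfl⟩
    exact ⟨x, hx, hS, rfl⟩
  · rintro ⟨x, hx, hS, rfl⟩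
    exact ⟨⟨x, hx⟩, hS, rfl⟩

theorem cls_mem_img {A : Cx R V} {S : Submodule R V} {x : V} (hx : A.d x = 0) (h : x ∈ S) :
    A.cls x hx ∈ A.img S := mem_img.2 ⟨x, hx, h, rfl⟩

theorem img_mono (A : Cx R V) {S T : Submodule R V} (h : S ≤ T) : A.img S ≤ A.img T :=
  Submodule.map_mono (Submodule.comap_mono h)

theorem img_top (A : Cx R V) : A.img ⊤ = ⊤ := by
  refine eq_top_iff.2 fun c _ => ?_
  obtain ⟨x, hx, rfl⟩ := A.exists_cls c
  exact cls_mem_img hx trivial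

theorem img_bot (A : Cx R V) : A.img ⊥ = ⊥ := by
  refine eq_bot_iff.2 fun c hc => ?_
  obtain ⟨x, hx, h0, rfl⟩ := mem_img.1 hc
  obtain rfl : x = 0 := h0
  exact A.cls_zero hx

theorem map_mem_img {A : Cx R V} {B : Cx R W} {f : V →ₗ[R] W} (hf : IsCh A B f)
    {S : Submodule R V} {T : Submodule R W} (h : ∀ x ∈ S, f x ∈ T) {c : A.H}
    (hc : c ∈ A.img S) : A.map B f hf c ∈ B.img T := by
  obtain ⟨x, hx, hS, rfl⟩ := mem_img.1 hc
  exact cls_mem_img _ (h x hS)

end Cx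

section Tri

open Cx

variable {R : Type*} [Ring R] [CharP R 2]
variable {V W X : Type*} [AddCommGroup V] [Module R V] [AddCommGroup W] [Module R W]
  [AddCommGroup X] [Module R X]

theorem add_self2 (R : Type*) [Ring R] [CharP R 2] [Module R V] (x : V) : x + x = 0 := by
  rw [← two_smul R x, CharTwo.two_eq_zero, zero_smul]

theorem sub_eq_add2 (R : Type*) [Ring R] [CharP R 2] [Module R V] (x y : V) :
    x - y = x + y := by
  rw [sub_eq_iff_eq_add, add_assoc, add_self2 R y, add_zero]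

/-- Homotopy invariance in characteristic two. -/
theorem map_eq_of_htpy2 {A : Cx R V} {B : Cx R W} {f g : V →ₗ[R] W} (hf : IsCh A B f)
    (hg : IsCh A B g) (K : V →ₗ[R] W) (h : ∀ x, B.d (K x) + K (A.d x) = f x + g x) :
    A.map B f hf = A.map B g hg :=
  map_eq_of_htpy hf hg K fun x => by rw [h, sub_eq_add2 R]

/-- Chain data of a triangle `A → B → C → A`: three chain maps and three null-homotopies. -/
structure Tri (A : Cx R V) (B : Cx R W) (C : Cx R X) where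
  f : V →ₗ[R] W
  g : W →ₗ[R] X
  h : X →ₗ[R] V
  hA : V →ₗ[R] X
  hB : W →ₗ[R] V
  hC : X →ₗ[R] W
  cf : IsCh A B f
  cg : IsCh B C g
  ch : IsCh C A h
  eA : ∀ x, C.d (hA x) + hA (A.d x) = g (f x)
  eB : ∀ x, A.d (hB x) + hB (B.d x) = h (g x)
  eC : ∀ x, B.d (hC x) + hC (C.d x) = f (h x)

namespace Tri

variable {A : Cx R V} {B : Cx R W} {C : Cx R X} (T : Tri A B C)

/-- Rotation of a triangle. -/
def rot : Tri B C A :=
  ⟨T.g, T.h, T.f, T.hB, T.hC, T.hA, T.cg, T.ch, T.cf, T.eB, T.eC, T.eA⟩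

/-- The second-order map at `A`. -/
def ψ : V →ₗ[R] V := T.h ∘ₗ T.hA + T.hB ∘ₗ T.f

theorem ψ_apply (x : V) : T.ψ x = T.h (T.hA x) + T.hB (T.f x) := rfl

theorem rot_ψ_apply (x : W) : T.rot.ψ x = T.f (T.hB x) + T.hC (T.g x) := rfl

theorem rot_rot_ψ_apply (x : X) : T.rot.rot.ψ x = T.g (T.hC x) + T.hA (T.h x) := rfl

theorem cψ : IsCh A A T.ψ := fun x => by
  have e1 := congrArg T.h (T.eA x)
  have e2 := T.eB (T.f x)
  rw [map_add, ← T.ch] at e1
  rw [T.cf] at e2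
  rw [ψ_apply, ψ_apply, map_add]
  have a1 := add_self2 R (T.h (T.hA (A.d x)))
  have a2 := add_self2 R (T.hB (T.f (A.d x)))
  have a3 := add_self2 R (T.h (T.g (T.f x)))
  linear_combination (norm := abel) e1 + e2 - a1 - a2 + a3

/-- The maps on homology. -/
def F : A.H →ₗ[R] B.H := A.map B T.f T.cf
/-- The second-order map on homology. -/
def Ψ : A.H →ₗ[R] A.H := A.map A T.ψ T.cψ

theorem F_F (c : A.H) : T.rot.F (T.F c) = 0 := by
  obtain ⟨x, hx, rfl⟩ := A.exists_cls c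
  refine (C.cls_eq_zero (T.cg.cyc (T.cf.cyc hx))).2 ⟨T.hA x, ?_⟩
  rw [← T.eA, hx, map_zero, add_zero]

theorem Ψ_F (c : A.H) : T.rot.Ψ (T.F c) = T.F (T.Ψ c) := by
  obtain ⟨x, hx, rfl⟩ := A.exists_cls c
  refine (B.cls_eq_iff (T.rot.cψ.cyc (T.cf.cyc hx)) (T.cf.cyc (T.cψ.cyc hx))).2
    ⟨T.hC (T.hA x), ?_⟩
  have e1 := T.eA x
  rw [hx, map_zero, add_zero] at e1
  have e2 := T.eC (T.hA x)
  rw [e1] at e2
  rw [rot_ψ_apply, ψ_apply, map_add]
  have a1 := add_self2 R (T.hC (T.g (T.f x)))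
  have a2 := add_self2 R (T.f (T.h (T.hA x)))
  linear_combination (norm := abel) e2 - a1 + a2

/-- Core of the triangle lemma: the second-order map sends the kernel of `g` into the image of
`f`, with an explicit preimage. -/
theorem core {x : W} (hx : B.d x = 0) {y : X} (hy : C.d y = T.g x) :
    ∃ hw : A.d (T.hB x + T.h y) = 0,
      T.F (A.cls (T.hB x + T.h y) hw) = T.rot.Ψ (B.cls x hx) := by
  have e1 := T.eB x
  rw [hx, map_zero, add_zero] at e1
  have hw : A.d (T.hB x + T.h y) = 0 := by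
    rw [map_add, e1, T.ch, hy, add_self2 R]
  refine ⟨hw, (B.cls_eq_iff (T.cf.cyc hw) (T.rot.cψ.cyc hx)).2 ⟨T.hC y, ?_⟩⟩
  have e2 := T.eC y
  rw [hy] at e2
  rw [rot_ψ_apply, map_add]
  linear_combination (norm := abel) e2

/-- Filtered triangle lemma, with arbitrary submodules: a class from `P` killed by `g` is the
image under `f` of a class in `S'`. -/
theorem filt {P : Submodule R W} {Q : Submodule R X} {S : Submodule R V}
    {S' : Submodule R A.H}
    (hQ : ∀ x ∈ P, B.d x = 0 → (∃ y, C.d y = T.g x) → ∃ y ∈ Q, C.d y = T.g x)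
    (hP : ∀ x ∈ P, T.hB x ∈ S) (hh : ∀ y ∈ Q, T.h y ∈ S)
    (hs : ∀ c ∈ A.img S, ∃ c' ∈ S', T.Ψ c' = c) (hi : Function.Injective T.rot.Ψ)
    {c : B.H} (hc : c ∈ B.img P) (h0 : T.rot.F c = 0) : ∃ c' ∈ S', T.F c' = c := by
  obtain ⟨x, hx, hxP, rfl⟩ := mem_img.1 hc
  obtain ⟨y, hyQ, hy⟩ := hQ x hxP hx ((C.cls_eq_zero (T.cg.cyc hx)).1 h0)
  obtain ⟨hw, e⟩ := T.core hx hy
  obtain ⟨c', hc', e'⟩ := hs _ (cls_mem_img hw (S.add_mem (hP x hxP) (hh y hyQ)))
  exact ⟨c', hc', hi (by rw [Ψ_F, e', e])⟩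

/-- The triangle lemma: exactness at `B`. -/
theorem exact (hs : Function.Surjective T.Ψ) (hi : Function.Injective T.rot.Ψ) :
    LinearMap.ker T.rot.F = LinearMap.range T.F := by
  refine le_antisymm (fun c hc => ?_) ?_
  · obtain ⟨c', -, e⟩ := T.filt (P := ⊤) (Q := ⊤) (S := ⊤) (S' := ⊤)
      (fun _ _ _ ⟨y, hy⟩ => ⟨y, trivial, hy⟩) (fun _ _ => trivial) (fun _ _ => trivial)
      (fun c _ => (hs c).imp fun _ h => ⟨trivial, h⟩) hi (by rw [img_top]; trivial) hc
    exact ⟨c', e⟩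
  · rintro _ ⟨c, rfl⟩
    exact T.F_F c

end Tri

end Tri

end Crest.Agent.X212.Win22
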