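import Crest.Agent.X212.Win22.Gr

/-!
WIN: the filtered triangle lemma from chain data.
-/

set_option linter.unusedSectionVars false

namespace Crest.Agent.X212.Win22

open Cx

/-- Shift of a (class, degree) label by the differential. -/
def sh {L : Type*} (l : L × ℚ) : L × ℚ := (l.1, l.2 - 1)

theorem sh_inj {L : Type*} : Function.Injective (sh (L := L)) := fun a b h => by
  have h1 : a.1 = b.1 := congrArg (fun x => x.1) h
  have h2 : a.2 - 1 = b.2 - 1 := congrArg (fun x => x.2) h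
  exact Prod.ext h1 (by linarith)

/-- Complexes whose generators carry a class in `L` and a rational degree. -/
abbrev QCx (R : Type*) [Ring R] (ι : Type*) [Fintype ι] [DecidableEq ι] (L : Type*) :=
  GCx R ι (L × ℚ) sh

/-- A bijective chain map is injective on homology. -/
theorem map_inj_of_bij {R V W : Type*} [Ring R] [AddCommGroup V] [Module R V] [AddCommGroup W]
    [Module R W] {A : Cx R V} {B : Cx R W} {u : V →ₗ[R] W} (hu : IsCh A B u)
    (hb : Function.Bijective u) : Function.Injective (A.map B u hu) := by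
  refine (injective_iff_map_eq_zero _).2 fun c hc => ?_
  obtain ⟨x, hx, rfl⟩ := A.exists_cls c
  obtain ⟨y, hy⟩ := (B.cls_eq_zero (hu.cyc hx)).1 hc
  obtain ⟨z, rfl⟩ := hb.2 y
  exact (A.cls_eq_zero hx).2 ⟨z, hb.1 (by rw [← hu, hy])⟩

variable {F : Type*} [Field F] [CharP F 2]
variable {ι κ μ : Type*} [Fintype ι] [DecidableEq ι] [Fintype κ] [DecidableEq κ] [Fintype μ]
  [DecidableEq μ] {L L' L'' : Type*}

namespace QCx

/-- Degree of a generator. -/
def gr (A : QCx F ι L) (i : ι) : ℚ := (A.lab i).2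

/-- The window of classes of degree at most `N`. -/
def le (A : QCx F ι L) (N : ℚ) : Submodule F A.H := A.Hs {l | l.2 ≤ N}

/-- The classes of class `s` and degree `q`. -/
def W (A : QCx F ι L) (l : L × ℚ) : Submodule F A.H := A.Hs {l}

theorem W_ind (A : QCx F ι L) : iSupIndep A.W := A.iSupIndep_Hs

theorem W_top (A : QCx F ι L) : ⨆ l, A.W l = ⊤ := A.iSup_Hs

theorem le_eq (A : QCx F ι L) (N : ℚ) : A.le N = ⨆ l ∈ {l : L × ℚ | l.2 ≤ N}, A.W l :=
  A.Hs_eq_iSup _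

theorem le_mono (A : QCx F ι L) {N M : ℚ} (h : N ≤ M) : A.le N ≤ A.le M :=
  A.Hs_mono fun _ hl => le_trans hl h

/-- `φ` raises the degree by at most `c`. -/
def Up (A : QCx F ι L) (B : QCx F κ L') (φ : (ι → F) →ₗ[F] (κ → F)) (c : ℚ) : Prop :=
  Sp φ fun i k => B.gr k ≤ A.gr i + c

theorem Up.map_mem {A : QCx F ι L} {B : QCx F κ L'} {φ : (ι → F) →ₗ[F] (κ → F)} {c : ℚ}
    (h : Up A B φ c) (hφ : IsCh A.toCx B.toCx φ) {N : ℚ} {x : A.H} (hx : x ∈ A.le N) :
    A.map B.toCx φ hφ x ∈ B.le (N + c) :=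
  GCx.map_mem_Hs hφ (r := fun a b => b.2 ≤ a.2 + c) h
    (fun a ha b hr => by
      have ha' : a.2 ≤ N := ha
      show b.2 ≤ N + c
      linarith) hx

theorem Up.mem {A : QCx F ι L} {B : QCx F κ L'} {φ : (ι → F) →ₗ[F] (κ → F)} {c : ℚ}
    (h : Up A B φ c) {N M : ℚ} (hM : N + c ≤ M) {x : ι → F} (hx : x ∈ A.ch {l | l.2 ≤ N}) :
    φ x ∈ B.ch {l | l.2 ≤ M} :=
  Sp.mem h (fun i hi k hr => by
    have hi' : A.gr i ≤ N := hi
    show B.gr k ≤ M
    linarith) hx

/-- A homogeneous chain map sends a graded piece of the homology to a graded piece. -/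
theorem map_mem_W {A : QCx F ι L} {B : QCx F κ L'} {φ : (ι → F) →ₗ[F] (κ → F)}
    (hφ : IsCh A.toCx B.toCx φ) {s : L} {s' : L'} {c : ℚ}
    (h : Sp φ fun i k => (A.lab i).1 = s ∧ (B.lab k).1 = s' ∧ B.gr k = A.gr i + c) {q : ℚ}
    {x : A.H} (hx : x ∈ A.W (s, q)) : A.map B.toCx φ hφ x ∈ B.W (s', q + c) :=
  GCx.map_mem_Hs hφ (r := fun a b => a.1 = s ∧ b.1 = s' ∧ b.2 = a.2 + c) h
    (fun a ha b hr => by
      obtain rfl : a = (s, q) := ha
      exact Prod.ext hr.2.1 hr.2.2) hx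

/-- A homogeneous chain map kills the pieces of the other classes. -/
theorem map_eq_zero_W {A : QCx F ι L} {B : QCx F κ L'} {φ : (ι → F) →ₗ[F] (κ → F)}
    (hφ : IsCh A.toCx B.toCx φ) {s : L} (h : Sp φ fun i _ => (A.lab i).1 = s) {t : L} {q : ℚ}
    (ht : t ≠ s) {x : A.H} (hx : x ∈ A.W (t, q)) : A.map B.toCx φ hφ x = 0 := by
  have := GCx.map_mem_Hs hφ (r := fun a _ => a.1 = s) h (T := ∅)
    (fun a ha b hr => by
      obtain rfl : a = (t, q) := ha
      exact (ht hr).elim) hx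
  rwa [B.Hs_eq_bot fun _ => id] at this

/-- `ψ` is homotopic to `u + ν`, with `u` of degree zero and injective on homology and `ν`
lowering the degree. -/
structure Uni (A : QCx F ι L) (ψ : (ι → F) →ₗ[F] (ι → F)) where
  G : (ι → F) →ₗ[F] (ι → F)
  u : (ι → F) →ₗ[F] (ι → F)
  ν : (ι → F) →ₗ[F] (ι → F)
  cu : IsCh A.toCx A.toCx u
  eq : ∀ x, A.d (G x) + G (A.d x) = ψ x + (u x + ν x)
  du : Sp u fun i k => A.gr k = A.gr i
  dν : Sp ν fun i k => A.gr k < A.gr i
  inj : Function.Injective (A.map A.toCx u cu)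

namespace Uni

variable {A : QCx F ι L} {ψ : (ι → F) →ₗ[F] (ι → F)} (U : Uni A ψ)

theorem cν (hψ : IsCh A.toCx A.toCx ψ) : IsCh A.toCx A.toCx U.ν := fun x => by
  have e1 := congrArg A.d (U.eq x)
  have e2 := U.eq (A.d x)
  rw [map_add, map_add, map_add, A.dd, hψ, U.cu] at e1
  rw [A.dd, map_zero] at e2
  linear_combination (norm := abel) e2 - e1

theorem map_eq (hψ : IsCh A.toCx A.toCx ψ) :
    A.map A.toCx ψ hψ = A.map A.toCx U.u U.cu + A.map A.toCx U.ν (U.cν hψ) := by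
  rw [← map_add' U.cu (U.cν hψ) (U.cu.add (U.cν hψ))]
  exact map_eq_of_htpy2 _ _ U.G U.eq

include U in
theorem map_inj (hψ : IsCh A.toCx A.toCx ψ) : Function.Injective (A.map A.toCx ψ hψ) := by
  rw [U.map_eq hψ]
  refine A.inj_add (fun l => l.2) U.inj (fun N c => ?_) fun N c hc => ?_
  · exact GCx.map_prH U.cu (r := fun a b => b.2 = a.2) U.du
      (fun a b h => by simp only [Set.mem_compl_iff, Set.mem_ofPred_eq, h]) c
  · exact GCx.map_mem_Hs (A := A) (B := A) (U.cν hψ) (r := fun a b => b.2 < a.2) U.dν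
      (S := {l | l.2 ≤ N}) (T := {l | l.2 < N}) (fun a ha b hr => lt_of_lt_of_le hr ha) hc

include U in
theorem map_le (hψ : IsCh A.toCx A.toCx ψ) (N : ℚ) :
    ∀ c ∈ A.le N, A.map A.toCx ψ hψ c ∈ A.le N := fun c hc => by
  rw [U.map_eq hψ]
  refine Submodule.add_mem _ ?_ ?_
  · exact GCx.map_mem_Hs (A := A) (B := A) U.cu (r := fun a b => b.2 = a.2) U.du
      (S := {l | l.2 ≤ N}) (T := {l | l.2 ≤ N}) (fun a ha b hr => le_of_eq_of_le hr ha) hc
  · exact GCx.map_mem_Hs (A := A) (B := A) (U.cν hψ) (r := fun a b => b.2 < a.2) U.dν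
      (S := {l | l.2 ≤ N}) (T := {l | l.2 ≤ N}) (fun a ha b hr => hr.le.trans ha) hc

include U in
theorem map_surj_le (hψ : IsCh A.toCx A.toCx ψ) {N : ℚ} {c : A.H} (hc : c ∈ A.le N) :
    ∃ c' ∈ A.le N, A.map A.toCx ψ hψ c' = c :=
  surj_on (U.map_inj hψ) (U.map_le hψ N) hc

end Uni

end QCx

open QCx

/-- WIN. Filtered exactness at `B` of a triangle `A → B → C → A` of graded complexes. -/
theorem win {A : QCx F ι L} {B : QCx F κ L'} {C : QCx F μ L''}
    (T : Tri A.toCx B.toCx C.toCx) {c : ℚ} (hc : 0 ≤ c) (hg : Up B C T.g c) (hh : Up C A T.h c)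
    (hB : Up B A T.hB c) (UA : Uni A T.ψ) (UB : Uni B T.rot.ψ) {N : ℚ} {x : B.H}
    (hx : x ∈ B.le N) (h0 : T.rot.F x = 0) : ∃ y ∈ A.le (N + 2 * c + 1), T.F y = x := by
  refine T.filt (P := B.ch {l | l.2 ≤ N}) (Q := C.ch {l | l.2 ≤ N + c + 1})
    (S := A.ch {l | l.2 ≤ N + 2 * c + 1}) (fun z hz _ ⟨y, hy⟩ => ?_)
    (fun z hz => hB.mem (by linarith) hz) (fun y hy => hh.mem (by linarith) hy)
    (fun w hw => UA.map_surj_le T.cψ hw) (UB.map_inj T.rot.cψ) hx h0
  obtain ⟨y', h1, h2⟩ := C.strict (hg.mem le_rfl hz) hy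
  refine ⟨y', pc_mono (fun i hi => ?_) h1, h2⟩
  have hi' : (C.lab i).2 - 1 ≤ N + c := hi
  show (C.lab i).2 ≤ N + c + 1
  linarith

/-- Exactness at `B`. -/
theorem win_exact {A : QCx F ι L} {B : QCx F κ L'} {C : QCx F μ L''}
    (T : Tri A.toCx B.toCx C.toCx) (UA : Uni A T.ψ) (UB : Uni B T.rot.ψ) :
    LinearMap.ker T.rot.F = LinearMap.range T.F :=
  T.exact (LinearMap.surjective_of_injective (UA.map_inj T.cψ)) (UB.map_inj T.rot.cψ)

end Crest.Agent.X212.Win22
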