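import Crest.Agent.X212.Win22.Ob

/-!
Classes of sequences of cycles (caps) and functionals of sequences of cocycles.
-/

set_option autoImplicit false
set_option linter.unusedSectionVars false

open Module Function Filter

noncomputable section

namespace Crest.Agent.X212.Win22

open Bor5 (K)
open Cx WG

theorem exists_ulim (c : ℕ → K) : ∃ a, ∀ᶠ m in uf, c m = a :=
  Ultrafilter.eventually_exists_iff.1 (Eventually.of_forall fun m => ⟨c m, rfl⟩)

/-- the limit of a sequence of scalars -/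
def ulim (c : ℕ → K) : K := (exists_ulim c).choose

theorem ulim_spec (c : ℕ → K) : ∀ᶠ m in uf, c m = ulim c := (exists_ulim c).choose_spec

theorem ulim_eq {c : ℕ → K} {a : K} (h : ∀ᶠ m in uf, c m = a) : ulim c = a := by
  obtain ⟨m, h1, h2⟩ := ((ulim_spec c).and h).exists
  exact h1.symm.trans h2

namespace WC

variable {L L' : Type} {X : WC L} {Y : WC L'}

/-- a bounded sequence of cycles -/
structure Cyc (X : WC L) where
  x : ∀ m, X.H m
  bd : ∃ a, ∀ᶠ m in atTop, x m ∈ X.le m a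
  cy : ∀ᶠ m in atTop, X.d m (x m) = 0

namespace Cyc

variable (ξ : X.Cyc)

theorem exists_rp : ∃ y, Rp ξ.x y := ξ.bd.elim fun _ h => exists_of_le (ev_uf h)

/-- the limit chain -/
def ch : X.LH := ξ.exists_rp.choose

theorem rp : Rp ξ.x ξ.ch := ξ.exists_rp.choose_spec

theorem d_ch : X.cx.d ξ.ch = 0 := (X.dM.rp ξ.rp).ext Rp.zero (ev_uf ξ.cy)

/-- the class -/
def cls : X.Hm := X.cx.cls ξ.ch ξ.d_ch

theorem cls_mem {s : L} {a : ℚ} (h : ∀ᶠ m in atTop, ξ.x m ∈ (X.g m).W (s, a)) :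
    ξ.cls ∈ X.gr s a := cls_mem_img _ (ξ.rp.mem_W.2 (ev_uf h))

theorem cls_eq_zero (h : ∀ᶠ m in atTop, ξ.x m = 0) : ξ.cls = 0 :=
  (X.cx.cls_congr _ (map_zero _) (ξ.rp.ext Rp.zero (ev_uf h))).trans (X.cx.cls_zero _)

/-- homologous sequences -/
theorem cls_eq (ξ ξ' : X.Cyc) (u : ∀ m, X.H m) {a : ℚ}
    (h : ∀ᶠ m in atTop, u m ∈ X.le m a ∧ X.d m (u m) = ξ.x m + ξ'.x m) : ξ.cls = ξ'.cls := by
  obtain ⟨y, r⟩ := exists_of_le (ev_uf (h.mono fun _ h => h.1))
  refine (X.cx.cls_eq_iff _ _).2 ⟨y, ?_⟩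
  rw [sub_eq_add2 K]
  exact (X.dM.rp r).ext (ξ.rp.add ξ'.rp) (ev_uf (h.mono fun _ h => h.2))

/-- image under a chain map -/
def map (f : WCh X Y) : Y.Cyc where
  x m := f.φ m (ξ.x m)
  bd := by
    obtain ⟨a, ha⟩ := ξ.bd
    exact (f.bd a).imp fun b hb => (hb.and ha).mono fun m h => h.1 _ h.2
  cy := by
    obtain ⟨a, ha⟩ := ξ.bd
    exact ((f.ch a).and (ha.and ξ.cy)).mono fun m h => by rw [h.1 _ h.2.1, h.2.2, map_zero]

theorem hm_cls (f : WCh X Y) : f.hm ξ.cls = (ξ.map f).cls :=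
  Y.cx.cls_congr (f.isCh.cyc ξ.d_ch) _
    ((f.rp ξ.rp).ext (ξ.map f).rp (Eventually.of_forall fun _ => rfl))

/-- gluing a cap to a cobordism -/
theorem hm_cls_eq (f : WCh X Y) (η : Y.Cyc) (u : ∀ m, Y.H m) {a : ℚ}
    (h : ∀ᶠ m in atTop, u m ∈ Y.le m a ∧ Y.d m (u m) = f.φ m (ξ.x m) + η.x m) :
    f.hm ξ.cls = η.cls := (ξ.hm_cls f).trans ((ξ.map f).cls_eq η u h)

end Cyc

/-- a sequence of cocycles -/
structure Coc (X : WC L) where
  ψ : ∀ m, X.H m →ₗ[K] K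
  co : X.Loc fun m y => ψ m (X.d m y) = 0

namespace Coc

variable (c : X.Coc)

/-- the limit cochain -/
def lim : X.LH →ₗ[K] K :=
  { toFun := fun y => ulim fun m => c.ψ m ((WG.exists_rp y).choose m)
    map_add' := fun y z => by
      obtain ⟨-, r, -⟩ := (WG.exists_rp y).choose_spec
      obtain ⟨-, r', -⟩ := (WG.exists_rp z).choose_spec
      obtain ⟨-, r'', -⟩ := (WG.exists_rp (y + z)).choose_spec
      refine ulim_eq (((r''.ev (r.add r')).and ((ulim_spec fun m =>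
        c.ψ m ((WG.exists_rp y).choose m)).and (ulim_spec fun m =>
          c.ψ m ((WG.exists_rp z).choose m)))).mono fun m h => ?_)
      rw [h.1, map_add, h.2.1, h.2.2]
    map_smul' := fun a y => by
      rcases k_cases a with rfl | rfl
      · obtain ⟨-, r, -⟩ := (WG.exists_rp ((0 : K) • y)).choose_spec
        have e : (0 : K) • y = 0 := zero_smul _ _
        refine (ulim_eq ((r.ev (e ▸ Rp.zero)).mono fun m h => ?_)).trans (zero_smul _ _).symm
        rw [h, map_zero]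
      · rw [one_smul]
        exact (one_smul _ _).symm }

theorem lim_rp {x : ∀ m, X.H m} {y : X.LH} (r : Rp x y) : ∀ᶠ m in uf, c.ψ m (x m) = c.lim y := by
  obtain ⟨-, r', -⟩ := (WG.exists_rp y).choose_spec
  exact ((r.ev r').and (ulim_spec fun m => c.ψ m ((WG.exists_rp y).choose m))).mono fun m h => by
    rw [h.1, h.2]
    rfl

/-- the functional on homology -/
def fn : X.Hm →ₗ[K] K :=
  X.cx.B.liftQ (c.lim ∘ₗ X.cx.Z.subtype) (by
    rintro ⟨z, hz⟩ ⟨y, hy⟩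
    obtain rfl : X.dM.lim y = z := hy
    obtain ⟨x, -, r, -⟩ := WG.exists_rp y
    obtain ⟨m, h1, h2⟩ := ((c.lim_rp (X.dM.rp r)).and (r.loc c.co)).exists
    exact h1.symm.trans h2)

theorem fn_cls (ξ : X.Cyc) : ∀ᶠ m in uf, c.ψ m (ξ.x m) = c.fn ξ.cls := c.lim_rp ξ.rp

end Coc

/-- a pairing formula passes to the limit -/
theorem sum_fn {α : Type*} (s : Finset α) (c : α → X.Coc) (ξ : α → X.Cyc) {n : K}
    (h : ∀ᶠ m in atTop, ∑ i ∈ s, (c i).ψ m ((ξ i).x m) = n) :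
    ∑ i ∈ s, (c i).fn (ξ i).cls = n := by
  obtain ⟨m, h1, h2⟩ := ((ev_uf h).and
    ((eventually_all_finset s).2 fun i _ => (c i).fn_cls (ξ i))).exists
  rw [← h1]
  exact Finset.sum_congr rfl fun i hi => (h2 i hi).symm

theorem exists_cls_ne {α : Type*} (s : Finset α) (c : α → X.Coc) (ξ : α → X.Cyc)
    (h : ∀ᶠ m in atTop, ∑ i ∈ s, (c i).ψ m ((ξ i).x m) = 1) : ∃ i ∈ s, (ξ i).cls ≠ 0 := by
  by_contra hn
  have h0 : ∑ i ∈ s, (c i).fn (ξ i).cls = 0 := Finset.sum_eq_zero fun i hi => by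
    rw [show (ξ i).cls = 0 from by_contra fun e => hn ⟨i, hi, e⟩, map_zero]
  exact zero_ne_one (h0.symm.trans (sum_fn s c ξ h))

end WC

end Crest.Agent.X212.Win22
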