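import Mathlib

/-!
Ultraproducts of vector spaces over a finite field, and their graded parts.
-/

set_option linter.unusedSectionVars false

open Filter Module

noncomputable section

namespace Crest.Agent.X212.Win22

variable {F : Type*} [Field F] {ι : Type*}

section UP

variable (F) (l : Filter ι) (H : ι → Type*) [∀ m, AddCommGroup (H m)] [∀ m, Module F (H m)]

/-- Families that vanish eventually. -/
def Nul : Submodule F (∀ m, H m) where
  carrier := {x | ∀ᶠ m in l, x m = 0}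
  add_mem' := fun {x y} hx hy => (hx.and hy).mono fun m h => by simp [h.1, h.2]
  zero_mem' := Eventually.of_forall fun _ => rfl
  smul_mem' := fun r x hx => hx.mono fun m h => by simp [h]

/-- The reduced product. -/
def UP : Type _ := (∀ m, H m) ⧸ Nul F l H

instance : AddCommGroup (UP F l H) := inferInstanceAs (AddCommGroup (_ ⧸ Nul F l H))
instance : Module F (UP F l H) := inferInstanceAs (Module F (_ ⧸ Nul F l H))

variable {H}

/-- The class of a family. -/
def um : (∀ m, H m) →ₗ[F] UP F l H := (Nul F l H).mkQ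

variable {F l}

theorem um_surj : Function.Surjective (um F l (H := H)) := (Nul F l H).mkQ_surjective

theorem um_eq_zero {x : ∀ m, H m} : um F l x = 0 ↔ ∀ᶠ m in l, x m = 0 :=
  Submodule.Quotient.mk_eq_zero (Nul F l H)

theorem um_eq {x y : ∀ m, H m} : um F l x = um F l y ↔ ∀ᶠ m in l, x m = y m := by
  rw [← sub_eq_zero, ← map_sub, um_eq_zero]
  simp only [Pi.sub_apply, sub_eq_zero]

variable (l) in
/-- The limit of a family of subspaces. -/
def ul (S : ∀ m, Submodule F (H m)) : Submodule F (UP F l H) :=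
  (Submodule.pi Set.univ S).map (um F l)

theorem exists_rep {S : ∀ m, Submodule F (H m)} {y : UP F l H} (hy : y ∈ ul l S) :
    ∃ x : ∀ m, H m, (∀ m, x m ∈ S m) ∧ um F l x = y := by
  obtain ⟨x, hx, rfl⟩ := hy
  exact ⟨x, fun m => hx m trivial, rfl⟩

theorem um_mem {S : ∀ m, Submodule F (H m)} {x : ∀ m, H m} :
    um F l x ∈ ul l S ↔ ∀ᶠ m in l, x m ∈ S m := by
  classical
  constructor
  · intro h
    obtain ⟨y, hy, e⟩ := exists_rep h
    exact (um_eq.1 e).mono fun m hm => hm ▸ hy m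
  · intro h
    refine ⟨fun m => if x m ∈ S m then x m else 0, fun m _ => ?_, um_eq.2 (h.mono fun m hm => ?_)⟩
    · by_cases hm : x m ∈ S m <;> simp [hm]
    · simp [hm]

theorem ul_mono {S T : ∀ m, Submodule F (H m)} (h : ∀ᶠ m in l, S m ≤ T m) : ul l S ≤ ul l T := by
  intro y hy
  obtain ⟨x, hx, rfl⟩ := exists_rep hy
  exact um_mem.2 (h.mono fun m hm => hm (hx m))

theorem ul_eq_bot {S : ∀ m, Submodule F (H m)} (h : ∀ᶠ m in l, S m = ⊥) : ul l S = ⊥ := by
  refine eq_bot_iff.2 fun y hy => ?_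
  obtain ⟨x, hx, rfl⟩ := exists_rep hy
  exact um_eq_zero.2 (h.mono fun m hm => by simpa [hm] using hx m)

theorem ul_ne_bot [l.NeBot] {S : ∀ m, Submodule F (H m)} (h : ∀ᶠ m in l, S m ≠ ⊥) :
    ul l S ≠ ⊥ := by
  classical
  have : ∀ m, ∃ x ∈ S m, S m ≠ ⊥ → x ≠ 0 := fun m => by
    by_cases hm : S m = ⊥
    · exact ⟨0, zero_mem _, fun h => (h hm).elim⟩
    · obtain ⟨x, hx, h0⟩ := (Submodule.ne_bot_iff _).1 hm
      exact ⟨x, hx, fun _ => h0⟩
  choose x hx h0 using this
  refine (Submodule.ne_bot_iff _).2 ⟨um F l x, um_mem.2 (Eventually.of_forall hx), fun e => ?_⟩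
  obtain ⟨m, h1, h2⟩ := ((um_eq_zero.1 e).and h).exists
  exact h0 m h2 h1

theorem ul_sup (S T : ∀ m, Submodule F (H m)) :
    ul l (fun m => S m ⊔ T m) = ul l S ⊔ ul l T := by
  refine le_antisymm (fun y hy => ?_) (sup_le (ul_mono (Eventually.of_forall fun _ => le_sup_left))
    (ul_mono (Eventually.of_forall fun _ => le_sup_right)))
  obtain ⟨x, hx, rfl⟩ := exists_rep hy
  choose a ha b hb e using fun m => Submodule.mem_sup.1 (hx m)
  have : x = a + b := funext fun m => (e m).symm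
  rw [this, map_add]
  exact Submodule.add_mem_sup (um_mem.2 (Eventually.of_forall ha))
    (um_mem.2 (Eventually.of_forall hb))

theorem ul_disjoint {S T : ∀ m, Submodule F (H m)} (h : ∀ᶠ m in l, Disjoint (S m) (T m)) :
    Disjoint (ul l S) (ul l T) := by
  rw [Submodule.disjoint_def]
  intro y h1 h2
  obtain ⟨x, rfl⟩ := um_surj y
  exact um_eq_zero.2 (((um_mem.1 h1).and ((um_mem.1 h2).and h)).mono fun m hm =>
    Submodule.disjoint_def.1 hm.2.2 _ hm.1 hm.2.1)

theorem iSup_ul_le {Λ : Type*} (W : ∀ m, Λ → Submodule F (H m)) (T : Set Λ) :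
    ⨆ a ∈ T, ul l (fun m => W m a) ≤ ul l fun m => ⨆ a ∈ T, W m a :=
  iSup₂_le fun a ha => ul_mono (Eventually.of_forall fun m =>
    le_iSup₂_of_le (f := fun a (_ : a ∈ T) => W m a) a ha le_rfl)

theorem ul_iSup_le {Λ : Type*} (W : ∀ m, Λ → Submodule F (H m)) {T : Set Λ} (hT : T.Finite) :
    (ul l fun m => ⨆ a ∈ T, W m a) ≤ ⨆ a ∈ T, ul l (fun m => W m a) := by
  induction T, hT using Set.Finite.induction_on with
  | empty => rw [ul_eq_bot (by simp)]; exact bot_le
  | insert _ _ ih =>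
    simp only [iSup_insert]
    rw [ul_sup]
    exact sup_le_sup_left ih _

theorem ul_indep {Λ : Type*} {W : ∀ m, Λ → Submodule F (H m)}
    (h : ∀ᶠ m in l, iSupIndep (W m)) : iSupIndep fun a => ul l fun m => W m a := fun a =>
  (ul_disjoint (T := fun m => ⨆ b ∈ {b | b ≠ a}, W m b) (h.mono fun _ hm => hm a)).mono_right
    (iSup_ul_le W {b | b ≠ a})

variable {H' : ι → Type*} [∀ m, AddCommGroup (H' m)] [∀ m, Module F (H' m)]

variable (l) in
/-- The limit of a family of maps. -/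
def umap (f : ∀ m, H m →ₗ[F] H' m) : UP F l H →ₗ[F] UP F l H' :=
  (Nul F l H).mapQ (Nul F l H') (LinearMap.pi fun m => f m ∘ₗ LinearMap.proj m)
    fun x (hx : ∀ᶠ m in l, x m = 0) =>
      (hx.mono fun m hm => by simp [hm] : ∀ᶠ m in l, f m (x m) = 0)

theorem umap_um (f : ∀ m, H m →ₗ[F] H' m) (x : ∀ m, H m) :
    umap l f (um F l x) = um F l fun m => f m (x m) := rfl

theorem umap_mem {f : ∀ m, H m →ₗ[F] H' m} {S : ∀ m, Submodule F (H m)}
    {T : ∀ m, Submodule F (H' m)} (h : ∀ᶠ m in l, ∀ x ∈ S m, f m x ∈ T m) {y : UP F l H}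
    (hy : y ∈ ul l S) : umap l f y ∈ ul l T := by
  obtain ⟨x, hx, rfl⟩ := exists_rep hy
  exact um_mem.2 (h.mono fun m hm => hm _ (hx m))

theorem umap_eq_zero {f : ∀ m, H m →ₗ[F] H' m} {S : ∀ m, Submodule F (H m)}
    (h : ∀ᶠ m in l, ∀ x ∈ S m, f m x = 0) {y : UP F l H} (hy : y ∈ ul l S) :
    umap l f y = 0 := by
  obtain ⟨x, hx, rfl⟩ := exists_rep hy
  exact um_eq_zero.2 (h.mono fun m hm => hm _ (hx m))

theorem umap_inj {f : ∀ m, H m →ₗ[F] H' m} {S : ∀ m, Submodule F (H m)}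
    (h : ∀ᶠ m in l, ∀ x ∈ S m, f m x = 0 → x = 0) {y : UP F l H} (hy : y ∈ ul l S)
    (h0 : umap l f y = 0) : y = 0 := by
  obtain ⟨x, hx, rfl⟩ := exists_rep hy
  exact um_eq_zero.2 ((h.and (um_eq_zero.1 h0)).mono fun m hm => hm.1 _ (hx m) hm.2)

theorem umap_surj {f : ∀ m, H m →ₗ[F] H' m} {S : ∀ m, Submodule F (H m)} {z : ∀ m, H' m}
    (h : ∀ᶠ m in l, ∃ x ∈ S m, f m x = z m) : ∃ y ∈ ul l S, umap l f y = um F l z := by
  classical
  have : ∀ m, ∃ x ∈ S m, (∃ x ∈ S m, f m x = z m) → f m x = z m := fun m => by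
    by_cases hm : ∃ x ∈ S m, f m x = z m
    · obtain ⟨x, hx, e⟩ := hm
      exact ⟨x, hx, fun _ => e⟩
    · exact ⟨0, zero_mem _, fun h => (hm h).elim⟩
  choose x hx e using this
  exact ⟨um F l x, um_mem.2 (Eventually.of_forall hx), um_eq.2 (h.mono e)⟩

/-- Over a finite field, bounded dimension passes to the ultralimit. -/
theorem ul_rank [Finite F] (𝒰 : Ultrafilter ι) {S : ∀ m, Submodule F (H m)} {C : ℕ}
    (h : ∀ᶠ m in (𝒰 : Filter ι), FiniteDimensional F (S m) ∧ finrank F (S m) ≤ C) :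
    Module.rank F (ul (𝒰 : Filter ι) S) ≤ C := by
  classical
  refine rank_le fun s hs => ?_
  by_contra hlt
  rw [not_le] at hlt
  choose x hx e using fun v : s => exists_rep v.1.2
  have key : ∀ᶠ m in (𝒰 : Filter ι), ∃ c : s → F, c ≠ 0 ∧ ∑ v, c v • x v m = 0 := by
    refine h.mono fun m hm => ?_
    have := hm.1
    have nl : ¬LinearIndependent F fun v : s => (⟨x v m, hx v m⟩ : S m) := fun li => by
      have := li.fintype_card_le_finrank
      rw [Fintype.card_coe] at this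
      omega
    obtain ⟨c, hc, v, hv⟩ := Fintype.not_linearIndependent_iff.1 nl
    refine ⟨c, fun h0 => hv (congrFun h0 v), ?_⟩
    simpa using congrArg Subtype.val hc
  obtain ⟨c, hc⟩ := Ultrafilter.eventually_exists_iff.1 key
  obtain ⟨m0, hc0, -⟩ := hc.exists
  refine hc0 (funext fun v => Fintype.linearIndependent_iff.1 hs c (Subtype.ext ?_) v)
  have : um F (𝒰 : Filter ι) (∑ v, c v • x v) = 0 :=
    um_eq_zero.2 (hc.mono fun m hm => by simpa using hm.2)
  rw [map_sum] at this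
  simp only [map_smul, e] at this
  simpa using this

theorem ul_fd [Finite F] (𝒰 : Ultrafilter ι) {S : ∀ m, Submodule F (H m)} {C : ℕ}
    (h : ∀ᶠ m in (𝒰 : Filter ι), FiniteDimensional F (S m) ∧ finrank F (S m) ≤ C) :
    FiniteDimensional F (ul (𝒰 : Filter ι) S) ∧ finrank F (ul (𝒰 : Filter ι) S) ≤ C :=
  ⟨Module.rank_lt_aleph0_iff.1 ((ul_rank 𝒰 h).trans_lt (Cardinal.natCast_lt_aleph0)),
    finrank_le_of_rank_le (ul_rank 𝒰 h)⟩

end UP

section Sub

variable {V : Type*} [AddCommGroup V] [Module F V] {Λ : Type*} (W : Λ → Submodule F V)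

/-- The pieces inside their sum. -/
def sub (a : Λ) : Submodule F ↥(⨆ a, W a) := (W a).comap (⨆ a, W a).subtype

theorem mem_sub {a : Λ} {y : ↥(⨆ a, W a)} : y ∈ sub W a ↔ y.1 ∈ W a := Iff.rfl

theorem map_sub_eq (a : Λ) : (sub W a).map (⨆ a, W a).subtype = W a := by
  rw [sub, Submodule.map_comap_subtype, inf_eq_right.2 (le_iSup W a)]

theorem mem_iSup_sub {T : Set Λ} {y : ↥(⨆ a, W a)} :
    y ∈ ⨆ a ∈ T, sub W a ↔ y.1 ∈ ⨆ a ∈ T, W a := by
  have e : (⨆ a ∈ T, sub W a).map (⨆ a, W a).subtype = ⨆ a ∈ T, W a := by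
    simp only [Submodule.map_iSup, map_sub_eq]
  rw [← e]
  exact ⟨fun h => ⟨y, h, rfl⟩, fun ⟨z, hz, h⟩ => (Subtype.ext h : z = y) ▸ hz⟩

theorem sub_top : ⨆ a, sub W a = ⊤ := by
  refine eq_top_iff.2 fun y _ => ?_
  have := (mem_iSup_sub W (T := Set.univ) (y := y)).2 (by simpa using y.2)
  simpa using this

theorem sub_indep (h : iSupIndep W) : iSupIndep (sub W) := fun a => by
  rw [Submodule.disjoint_def]
  intro y h1 h2
  exact Subtype.ext (Submodule.disjoint_def.1 (h a) _ h1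
    ((mem_iSup_sub W (T := {b | b ≠ a})).1 h2))

/-- The piece inside the sum is isomorphic to the piece. -/
def subEquiv (a : Λ) : sub W a ≃ₗ[F] W a := Submodule.comapSubtypeEquivOfLe (le_iSup W a)

end Sub

end Crest.Agent.X212.Win22
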